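import Vale.Agent.P167.H446.G.Marks
import Vale.Agent.P167.H918.FinS
import Vale.Agent.P167.H918.ExQS
import Vale.Agent.P167.QE.Ft

/-!
# P167, general `q`, [GEO-ASM]: `GeoQ` from the five blocks

`B_all`, `B_bad`, `B_cmp`, `B_shp`, `B_cl` : the blocks; `geoQ_of` : `GeoQ μ (Stair 3)`.
-/

set_option autoImplicit false

open Filter Topology Set Metric

namespace Vale.Agent.P167.H446.G

open Vale.Agent.P153.R2
open Vale.Agent.P167.QT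
open Vale.Agent.P167.SLE (bq)
open Vale.Agent.P167.H411 (exn Set6)
open Vale.Agent.P167.H718 (Dq)

/-- The frame of a block: all sequences of the class. -/
def Blk (F : (Φ : (ℝ × ℝ) ≃ₜ (ℝ × ℝ)) → (ψ : ℂ → ℂ) → (δ : ℕ → ℝ) → (N k : ℕ → ℕ) →
    (p : ∀ n, ZMod (N n) → ℤ × ℤ) → (S : ℕ → Finset (ℤ × ℤ)) → (ψn : ℕ → ℂ → ℂ) →
    (T R : ℝ) → Prop) : Prop :=
  ∀ (Φ : (ℝ × ℝ) ≃ₜ (ℝ × ℝ)) (ψ : ℂ → ℂ) (δ : ℕ → ℝ) (N k : ℕ → ℕ)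
    (p : ∀ n, ZMod (N n) → ℤ × ℤ) (S : ℕ → Finset (ℤ × ℤ)) (ψn : ℕ → ℂ → ℂ),
    Set6 Φ ψ δ N k p S ψn → QE.Stair 3 Φ δ N k p S → ∀ T R : ℝ, 0 ≤ T → 0 < R →
      F Φ ψ δ N k p S ψn T R

/-- [ALL] -/
def B_all (μ : ℝ) : Prop := Blk fun _ _ δ N k p S ψn T R =>
  ∃ ρ : ℝ, 0 < ρ ∧ ∀ C : Cst, C.T = T → C.R = R → C.Sm ρ → I_all μ C δ N k p S ψn

/-- [BAD] -/
def B_bad (μ : ℝ) : Prop := Blk fun _ _ δ N k p S ψn T R =>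
  ∃ ρ : ℝ, 0 < ρ ∧ ∀ C : Cst, C.T = T → C.R = R → C.Sm ρ → I_bad μ C δ N k p S ψn

/-- [CMP] -/
def B_cmp (μ : ℝ) : Prop := Blk fun _ _ δ N k p S ψn T R =>
  ∃ ρ : ℝ, 0 < ρ ∧ ∀ C : Cst, C.T = T → C.R = R → C.Sm ρ → I_cmp μ C δ N k p S ψn

/-- [SHP] -/
def B_shp : Prop := Blk fun Φ ψ δ N k p S ψn T R =>
  ∃ b₁ : ℝ, ∀ X X' : ℝ, b₁ ≤ X → X < X' → ∀ Y : ℝ, 0 < Y → 8 * (R + 1) ≤ Y →
    64 * (T + 1) ≤ Y ^ 2 → ∃ m₀ B Rb : ℝ, 0 < m₀ ∧ 0 ≤ Rb ∧ ∀ m : ℝ, 0 < m → m ≤ m₀ →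
      I_shpC ⟨T, R, X, X', dist (ψ X) (bq Φ), dist (ψ X') (bq Φ), m, B, Y, Rb⟩ δ N k p S ψn

/-- [CL] -/
def B_cl (μ : ℝ) : Prop := Blk fun Φ ψ δ N k p S ψn T R =>
  ∃ b₂ : ℝ, ∀ X : ℝ, b₂ ≤ X → ∀ ε : ℝ, 0 < ε → ∃ X₀ : ℝ, ∀ X' : ℝ, X₀ ≤ X' → ∀ Y : ℝ, 0 < Y →
    8 * (R + 1) ≤ Y → 64 * (T + 1) ≤ Y ^ 2 → ∀ m B Rb : ℝ, 0 < m → 0 ≤ Rb →
      I_cl μ ⟨T, R, X, X', dist (ψ X) (bq Φ), dist (ψ X') (bq Φ), m, B, Y, Rb⟩ δ N k p S ψn ε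

theorem ok_mono {P : Sh4} {ρ ρ' : ℕ} (h : P.Ok ρ) (hρ : ρ' ≤ ρ) : P.Ok ρ' where
  poly := h.poly
  encl := h.encl
  k_pos := h.k_pos
  k_lt := by have := h.k_lt; omega
  j_lt := by have := h.j_lt; omega
  l_lt := by have := h.l_lt; omega
  line := fun i h1 h2 => h.line i (by omega) h2
  tip := h.tip
  flat := fun v h1 h2 h3 h4 => h.flat v (by omega) (by omega) (by omega) (by omega)

/-- **[GEOQ]** from the blocks. -/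
theorem geoQ_of {μ : ℝ} (hμ : 0 < Real.cos μ) (hAll : B_all μ) (hBad : B_bad μ) (hCmp : B_cmp μ)
    (hShp : B_shp) (hCl : B_cl μ) : GeoQ μ (QE.Stair 3) := by
  intro Φ ψ δ N k p S ψn H hK T R hT hR
  obtain ⟨ρ₁, hρ₁, hAll⟩ := hAll Φ ψ δ N k p S ψn H hK T R hT hR
  obtain ⟨ρ₂, hρ₂, hBad⟩ := hBad Φ ψ δ N k p S ψn H hK T R hT hR
  obtain ⟨ρ₃, hρ₃, hCmp⟩ := hCmp Φ ψ δ N k p S ψn H hK T R hT hR
  obtain ⟨b₁, hShp⟩ := hShp Φ ψ δ N k p S ψn H hK T R hT hR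
  obtain ⟨b₂, hCl⟩ := hCl Φ ψ δ N k p S ψn H hK T R hT hR
  obtain ⟨ρ₄, hρ₄, hF⟩ := halfN H.appr hK
  obtain ⟨X₁, hX₁, hl1, -, hmono, -⟩ := line_all H hρ₄ hF
  have hU' : DET.Uni ψ (bq Φ) := SLE.uni_of_uniformizer R1.i_uinj H.unif
  obtain ⟨ρ, hρ, r1, r2, r3⟩ : ∃ ρ : ℝ, 0 < ρ ∧ ρ ≤ ρ₁ ∧ ρ ≤ ρ₂ ∧ ρ ≤ ρ₃ :=
    ⟨min ρ₁ (min ρ₂ ρ₃), by positivity, by simp, by simp, by simp⟩
  obtain ⟨M₀, hM₀⟩ := H756.mod_inf1 hU' (show 0 < ρ / 2 by positivity)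
  refine ⟨max (max b₁ b₂) (max X₁ |M₀|), fun X hX ε hε => ?_⟩
  have hX1 : b₁ ≤ X := ((le_max_left _ _).trans (le_max_left _ _)).trans hX
  have hX2 : b₂ ≤ X := ((le_max_right _ _).trans (le_max_left _ _)).trans hX
  have hX3 : X₁ ≤ X := ((le_max_left _ _).trans (le_max_right _ _)).trans hX
  have hX4 : |M₀| ≤ X := ((le_max_right _ _).trans (le_max_right _ _)).trans hX
  have hX0 : 0 < X := hX₁.trans_le hX3
  obtain ⟨X₀, hCl⟩ := hCl X hX2 ε hε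
  set X' : ℝ := max X₀ (X + 1) with hX'
  have hXX : X < X' := lt_of_lt_of_le (by linarith) (le_max_right _ _)
  -- the distances
  obtain ⟨hi, hr⟩ := hl1 X hX3
  obtain ⟨hi', hr'⟩ := hl1 X' (by linarith)
  have hLL : dist (ψ X') (bq Φ) < dist (ψ X) (bq Φ) := by
    have h1 : (rt * ψ X).re < (rt * ψ X').re := hmono (show X ∈ Ici X₁ from hX3)
      (show X' ∈ Ici X₁ from by show X₁ ≤ X'; linarith) hXX
    linarith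
  have hLd : 0 < dist (ψ X') (bq Φ) := dist_pos.2 (hU'.ne _ (by
    show (0 : ℝ) ≤ ((X' : ℝ) : ℂ).im
    simp))
  have hLc : dist (ψ X) (bq Φ) < ρ / 2 := by
    rw [dist_eq_norm]
    refine hM₀ X (by simp) ?_
    rw [Complex.norm_real, Real.norm_of_nonneg hX0.le]
    linarith [le_abs_self M₀]
  -- the height of the base point
  obtain ⟨Y, hY0, hY1, hY2⟩ : ∃ Y : ℝ, 0 < Y ∧ 8 * (R + 1) ≤ Y ∧ 64 * (T + 1) ≤ Y ^ 2 := by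
    refine ⟨8 * (R + 1) + 64 * (T + 1), by positivity, by nlinarith, ?_⟩
    nlinarith
  obtain ⟨m₀, B, Rb, hm₀, hRb, hShp⟩ := hShp X X' hX1 hXX Y hY0 hY1 hY2
  obtain ⟨m, hm, m1, m2, m3, m4⟩ : ∃ m : ℝ, 0 < m ∧ m ≤ m₀ ∧ 8 * m ≤ dist (ψ X') (bq Φ) ∧
      dist (ψ X') (bq Φ) + 8 * m ≤ dist (ψ X) (bq Φ) ∧ 16 * m ≤ ρ := by
    refine ⟨min m₀ (min (dist (ψ X') (bq Φ) / 8) (min ((dist (ψ X) (bq Φ) -
      dist (ψ X') (bq Φ)) / 8) (ρ / 16))), ?_, min_le_left _ _, ?_, ?_, ?_⟩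
    · refine lt_min hm₀ (lt_min (by linarith) (lt_min (by linarith) (by linarith)))
    · have : min m₀ (min (dist (ψ X') (bq Φ) / 8) (min ((dist (ψ X) (bq Φ) -
        dist (ψ X') (bq Φ)) / 8) (ρ / 16))) ≤ dist (ψ X') (bq Φ) / 8 :=
        (min_le_right _ _).trans (min_le_left _ _)
      linarith
    · have : min m₀ (min (dist (ψ X') (bq Φ) / 8) (min ((dist (ψ X) (bq Φ) -
        dist (ψ X') (bq Φ)) / 8) (ρ / 16))) ≤ (dist (ψ X) (bq Φ) - dist (ψ X') (bq Φ)) / 8 :=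
        (min_le_right _ _).trans ((min_le_right _ _).trans (min_le_left _ _))
      linarith
    · have : min m₀ (min (dist (ψ X') (bq Φ) / 8) (min ((dist (ψ X) (bq Φ) -
        dist (ψ X') (bq Φ)) / 8) (ρ / 16))) ≤ ρ / 16 :=
        (min_le_right _ _).trans ((min_le_right _ _).trans (min_le_right _ _))
      linarith
  set C : Cst := ⟨T, R, X, X', dist (ψ X) (bq Φ), dist (ψ X') (bq Φ), m, B, Y, Rb⟩ with hC
  have hSm : ∀ ρ' : ℝ, ρ ≤ ρ' → C.Sm ρ' := by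
    intro ρ' hρ'
    refine ⟨hm, m2, m3, ?_⟩
    show dist (ψ X) (bq Φ) + 8 * m ≤ ρ'
    linarith
  have iAll : I_all μ C δ N k p S ψn := hAll C rfl rfl (hSm _ r1)
  have iBad : I_bad μ C δ N k p S ψn := hBad C rfl rfl (hSm _ r2)
  have iCmp : I_cmp μ C δ N k p S ψn := hCmp C rfl rfl (hSm _ r3)
  have iShp : I_shpC C δ N k p S ψn := hShp m hm m1
  have iCl : I_cl μ C δ N k p S ψn ε := hCl X' (le_max_left _ _) Y hY0 hY1 hY2 m B Rb hm hRb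
  -- the family
  have hfam : ∀ s : ℝ, {P | P ∈ Fam C.Ld C.Lc C.m C.B s ∧ P.Ok 2}.Finite := fun s =>
    (H918.finite_sh4 2 (Ku C.B s)).subset fun P hP => ⟨hP.2, hP.1.2.2.2⟩
  refine comb (α := {r : ℝ // 0 < r}) H hμ (fun s => {P | P ∈ Fam C.Ld C.Lc C.m C.B s ∧ P.Ok 2})
    (fun s _ => hfam s) (fun s _ P hP => ⟨hP.2, H918.exq (by norm_num) hP.2⟩)
    (fun s n => vd (p n) (k n) C.Ld s (δ n)) (fun s n => even_vd _ _ _ _ _)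
    (fun s n => Dq (S n) (p n) (k n)) (fun s n => wf C (p n) (k n) (S n) (δ n) s)
    (fun s n => Nn s (δ n)) (fun s hs => tendsto_Nn (fun n => (H.appr.1 n).1) H.appr.2.1 hs)
    (fun s n => Nn_dvd _ _)
    (fun _ _ _ _ _ => True)
    (fun c r s n A j P => Inp C (p n) (k n) (S n) (δ n) r s A j c P)
    (fun c r s n A j η => prNS μ C (p n) (k n) (S n) (δ n) r s A j c ≤ η)
    (fun t s n A j P => ClS C δ N k p S ψn t s n A j P) ?_ ?_ ?_ ?_ ?_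
  · intro t ht
    obtain ⟨r, hr, s₀, hs₀, h⟩ := iShp t ht
    refine ⟨⟨r, hr⟩, min s₀ (m / 2), by positivity, fun s hs hss => ?_⟩
    filter_upwards [h s hs (hss.trans (min_le_left _ _))] with n hn A j hB _ c
    obtain ⟨P, hP, h1, h2⟩ := hn A j hB c
    refine ⟨P, ⟨hP, ok_mono hP.1 (le_Ku hs ?_)⟩, h1, h2⟩
    have h3 : s ≤ m / 2 := hss.trans (min_le_right _ _)
    show ((2 : ℕ) : ℝ) * s ≤ m
    push_cast
    linarith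
  · intro ε' hε'
    obtain ⟨η, hη, s₀, hs₀, h⟩ := iCmp ε' hε'
    refine ⟨η, hη, s₀, hs₀, fun s hs hss r => ?_⟩
    filter_upwards [h s hs hss r.1 r.2] with n hn A j hB c P hP
    exact hn A j hB c P hP.1
  · intro r η hη ε' hε'
    obtain ⟨s₀, hs₀, h⟩ := iBad r.1 η r.2 hη ε' hε'
    simp only [true_and]
    exact ⟨s₀, hs₀, h⟩
  · obtain ⟨h, hh, s₀, hs₀, hc⟩ := iCl
    refine ⟨h, hh, s₀, hs₀, fun s hs hss => ?_⟩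
    filter_upwards [hc s hs hss] with n hn A j A' P P₀ hB hB' hP hP₀
    exact hn A j A' P P₀ hB hB' hP.1 hP₀.1
  · obtain ⟨M, hM, s₀, hs₀, h⟩ := iAll
    refine ⟨M, hM, s₀, hs₀, fun s hs hss => ?_⟩
    filter_upwards [h s hs hss] with n hn A j hB P₀ hP₀
    exact hn A j hB P₀ hP₀.1

end Vale.Agent.P167.H446.G
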