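import Vale.Agent.P167.H446.G.Asm
import Vale.Agent.P167.H756.S23

/-!
# P167, general `q`, [GEO-ASM]: the closeness of the conformal quantities, block `B_cl`
-/

set_option autoImplicit false

open Filter Topology Set Metric

namespace Vale.Agent.P167.H446.G

open Vale.Agent.P153.R2
open Vale.Agent.P167.QT
open Vale.Agent.P167.SLE (bq)
open Vale.Agent.P167.E6 (pt)
open Vale.Agent.P167.H411 (exn Set6 good_ev)
open Vale.Agent.P167.H756 (sandE seqM_set6 drv wf_of PF)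

/-- **[CL]** -/
theorem b_cl (μ : ℝ) : B_cl μ := by
  intro Φ ψ δ N k p S ψn H hK T R hT hR
  obtain ⟨ρ, hρ, hF⟩ := halfN H.appr hK
  obtain ⟨X₁, hX₁, hl1, -, -, -⟩ := line_all H hρ hF
  refine ⟨max X₁ (8 * (R + 1) + 16 * (T + 1)), fun X hX ε hε => ?_⟩
  have hX2 : X₁ ≤ X := (le_max_left _ _).trans hX
  have hX3 : 8 * (R + 1) + 16 * (T + 1) ≤ X := (le_max_right _ _).trans hX
  have hX4 : 256 * (T + 1) ≤ X ^ 2 := by
    have h1 : 16 * (T + 1) ≤ X := by linarith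
    have h2 : (16 * (T + 1)) ^ 2 ≤ X ^ 2 := by gcongr
    nlinarith
  obtain ⟨X₀, hX₀, hs⟩ := sandE (e := μ / Real.pi) (h := Vale.Agent.P167.H411.Q.hQ μ)
    (seqM_set6 H) rt_ne (T := T + 1) (R := R + 1) (X := X) (by linarith) (by linarith)
    (by linarith) (by linarith) hX4 hε
  refine ⟨X₀, fun X' hX' Y hY0 hY1 hY2 m B Rb hm hRb => ?_⟩
  obtain ⟨h₀, hh₀, hev⟩ := hs X' hX' Y Rb (m / 2) hRb (by positivity) hY0 hY1 hY2
  set C : Cst := ⟨T, R, X, X', dist (ψ X) (bq Φ), dist (ψ X') (bq Φ), m, B, Y, Rb⟩ with hC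
  refine ⟨h₀, hh₀, min (h₀ / 2) (m / 8), by positivity, fun s hs hss => ?_⟩
  have hs1 : s ≤ h₀ := by linarith [hss.trans (min_le_left _ _)]
  have hs2 : 8 * s ≤ C.m := by
    have := hss.trans (min_le_right _ _)
    show 8 * s ≤ m
    linarith
  have hXX' : X₁ ≤ X' := by linarith
  filter_upwards [hev, mark_d (C := C) H (hl1 X' hXX').1 (hl1 X' hXX').2 rfl hs,
    mark_c (C := C) H (hl1 X hX2).1 (hl1 X hX2).2 rfl hs, mark_b (C := C) H hh₀,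
    flatAt_marks (C := C) H hs hs2, rad_ge H hs hs2, drv H hT hR.le (show (0 : ℝ) < 1 by norm_num),
    good_ev H.appr] with n hn hd hc hb hfl hrad hdrv hg
  intro A j A' P P₀ hB hB' hP hP₀ hcl hcl₀ u v u₀ w₀ hu hu₀
  obtain ⟨⟨Q, hQ⟩, hf⟩ := hcl
  obtain ⟨⟨Q₀, hQ₀⟩, hf₀⟩ := hcl₀
  have hwf : (exn δ N k p S ψn n).WF := H411.DC.expl_wf (wf_of H hg) (H.uni n hg)
  have hc0 : (exn δ N k p S ψn n).c A' 0 = 0 := hwf.c0 A' hB'.1
  obtain ⟨hD', hW0⟩ := hdrv A' hB'.1 0 hB'.2.1 hB'.2.2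
  obtain ⟨hD, -⟩ := hdrv A hB.1 j hB.2.1 hB.2.2
  rw [hc0] at hD' hQ₀
  have hl : 0 < un s (δ n) := hrad.2
  have hl' : (un s (δ n) : ℂ) ≠ 0 := by exact_mod_cast hl.ne'
  have ejl : P₀.q P₀.j = P.q P.j := by rw [fam_jl hP₀, fam_jl hP]
  have hp₀ := posL hl hu₀
  rw [ejl] at hp₀
  have hfl₀ := hfl P₀ hP₀
  rw [ejl] at hfl₀
  have hm2 : C.m / 2 ≤ C.m := by
    show m / 2 ≤ m
    linarith
  exact hn (-((dl (δ n) : ℂ) * pt (vd (p n) (k n) C.Ld s (δ n))))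
    ((exn δ N k p S ψn n).W A') ((exn δ N k p S ψn n).W A) ((exn δ N k p S ψn n).c A j)
    hD' hW0 hD Q₀ (emb (un s (δ n)) P₀) Q (emb (un s (δ n)) P) (ea (un s (δ n)) P₀)
    (eb (un s (δ n)) P₀) (ea (un s (δ n)) P) (eb (un s (δ n)) P)
    ((un s (δ n) : ℂ) * pt (P.q P.j)) 0 hQ₀ hQ hfl₀.1 hfl₀.2 (FlatAt.mono hf₀ hm2)
    (hfl P hP).1 (hfl P hP).2 (FlatAt.mono hf hm2)
    ((hc P hP).le.trans hs1) (hd.le.trans hs1) (hb s P₀ hP₀).le (hb s P hP).le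
    (un s (δ n)) u₀ w₀ u v hl' hp₀ (posL hl hu)

end Vale.Agent.P167.H446.G
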