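import Vale.Agent.P167.H446.G.Rot
import Vale.Agent.P167.H192.Dict
import Vale.Agent.P167.E6.Defs

/-!
# P167, general `q`, [GEO-ASM]: the units, the site `d`, the rotated frame
-/

set_option autoImplicit false

namespace Vale.Agent.P167.H446.G

open Filter Topology Set
open Vale.Agent.P167.E6 (pt)
open Vale.Agent.P167.H192 (ro)

/-- The coordinates of the squares with the origin at the site `v₀`. -/
noncomputable def psr (δ : ℝ) (v₀ : ℤ × ℤ) (ψ : ℂ → ℂ) (z : ℂ) : ℂ :=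
  rt * ψ z + -((dl δ : ℂ) * pt v₀)

/-- The number of squares of a unit; the unit is about `s`. -/
noncomputable def Nn (s δ : ℝ) : ℕ := 4 * ⌊s / (4 * dl δ)⌋₊

/-- The number of units of the length `L`. -/
noncomputable def Ku (L s : ℝ) : ℕ := ⌊L / s⌋₊

/-- The site `d`: `Ku L s + 1 / 2` units to the left of the junction `b`. -/
noncomputable def vd {n : ℕ} (p : ZMod n → ℤ × ℤ) (k : ℕ) (L s δ : ℝ) : ℤ × ℤ :=
  ro (p k) - (((Ku L s * Nn s δ + Nn s δ / 2 : ℕ) : ℤ), 0)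

theorem Nn_dvd (s δ : ℝ) : 4 ∣ Nn s δ := Dvd.intro _ rfl

theorem Nn_le {s δ : ℝ} (hs : 0 < s) (hδ : 0 < δ) : dl δ * Nn s δ ≤ s := by
  have hd := dl_pos hδ
  have h := Nat.floor_le (show 0 ≤ s / (4 * dl δ) by positivity)
  rw [le_div_iff₀ (by positivity)] at h
  unfold Nn
  push_cast
  linarith

theorem lt_Nn {s δ : ℝ} (hδ : 0 < δ) : s - 4 * dl δ < dl δ * Nn s δ := by
  have hd := dl_pos hδ
  have h := Nat.lt_floor_add_one (s / (4 * dl δ))
  rw [div_lt_iff₀ (by positivity)] at h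
  unfold Nn
  push_cast
  linarith

theorem tendsto_dl {δ : ℕ → ℝ} (h0 : Tendsto δ atTop (𝓝 0)) :
    Tendsto (fun n => dl (δ n)) atTop (𝓝 0) := by
  have := h0.div_const (√2)
  rwa [zero_div] at this

theorem tendsto_Nn {δ : ℕ → ℝ} (hδ : ∀ n, 0 < δ n) (h0 : Tendsto δ atTop (𝓝 0)) {s : ℝ}
    (hs : 0 < s) : Tendsto (fun n => Nn s (δ n)) atTop atTop := by
  have h1 : Tendsto (fun n => dl (δ n)) atTop (𝓝[>] 0) :=
    tendsto_nhdsWithin_iff.2 ⟨tendsto_dl h0, Eventually.of_forall fun n => dl_pos (hδ n)⟩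
  have h2 : Tendsto (fun n => s / (4 * dl (δ n))) atTop atTop := by
    refine ((h1.inv_tendsto_nhdsGT_zero).const_mul_atTop (show 0 < s / 4 by positivity)).congr ?_
    intro n
    rw [Pi.inv_apply]
    field_simp
  refine tendsto_atTop_mono (fun n => ?_) (tendsto_nat_floor_atTop.comp h2)
  show ⌊s / (4 * dl (δ n))⌋₊ ≤ 4 * ⌊s / (4 * dl (δ n))⌋₊
  omega

theorem tendsto_dlNn {δ : ℕ → ℝ} (hδ : ∀ n, 0 < δ n) (h0 : Tendsto δ atTop (𝓝 0)) {s : ℝ}
    (hs : 0 < s) : Tendsto (fun n => dl (δ n) * Nn s (δ n)) atTop (𝓝 s) := by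
  have h1 := tendsto_dl h0
  have h2 : Tendsto (fun n => s - 4 * dl (δ n)) atTop (𝓝 s) := by
    have := (h1.const_mul 4).const_sub s
    rwa [mul_zero, sub_zero] at this
  exact tendsto_of_tendsto_of_tendsto_of_le_of_le h2 tendsto_const_nhds
    (fun n => (lt_Nn (hδ n)).le) (fun n => Nn_le hs (hδ n))

theorem Ku_le {L s : ℝ} (hL : 0 ≤ L) (hs : 0 < s) : Ku L s * s ≤ L := by
  have h := Nat.floor_le (show 0 ≤ L / s by positivity)
  rwa [le_div_iff₀ hs] at h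

theorem lt_Ku {L s : ℝ} (hs : 0 < s) : L - s < Ku L s * s := by
  have h := Nat.lt_floor_add_one (L / s)
  rw [div_lt_iff₀ hs] at h
  unfold Ku
  linarith

theorem le_Ku {L s : ℝ} {a : ℕ} (hs : 0 < s) (h : a * s ≤ L) : a ≤ Ku L s := by
  unfold Ku
  refine Nat.le_floor ?_
  rwa [le_div_iff₀ hs]

theorem Ku_mono {L L' s : ℝ} (hs : 0 < s) (h : L ≤ L') : Ku L s ≤ Ku L' s :=
  Nat.floor_mono (by gcongr)

theorem even_vd {n : ℕ} (p : ZMod n → ℤ × ℤ) (k : ℕ) (L s δ : ℝ) :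
    Even ((vd p k L s δ).1 + (vd p k L s δ).2) := by
  have h : Even (((Ku L s * Nn s δ + Nn s δ / 2 : ℕ) : ℤ)) := by
    obtain ⟨a, ha⟩ := Nn_dvd s δ
    refine ⟨((Ku L s * (2 * a) + a : ℕ) : ℤ), ?_⟩
    rw [ha]
    have e : 4 * a / 2 = 2 * a := by omega
    rw [e]
    push_cast
    ring
  have h2 : (vd p k L s δ).1 + (vd p k L s δ).2 =
      2 * (p k).1 - (((Ku L s * Nn s δ + Nn s δ / 2 : ℕ) : ℤ)) := by
    unfold vd ro
    simp only [Prod.fst_sub, Prod.snd_sub]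
    ring
  rw [h2]
  exact (even_two_mul _).sub h

theorem rt_pt (δ : ℝ) (u : ℤ × ℤ) : rt * ((δ : ℂ) * pt u) = (dl δ : ℂ) * pt (ro u) := by
  apply Complex.ext
  · rw [rt_re]
    simp [pt, ro, dl]
    ring
  · rw [rt_im]
    simp [pt, ro, dl]
    ring

/-- The junction `b` in the frame. -/
theorem psr_b {n : ℕ} (p : ZMod n → ℤ × ℤ) (k : ℕ) (L s δ : ℝ) :
    rt * ((δ : ℂ) * pt (p k)) + -((dl δ : ℂ) * pt (vd p k L s δ)) =
      ((dl δ * ((Ku L s : ℝ) * Nn s δ + Nn s δ / 2) : ℝ) : ℂ) := by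
  rw [rt_pt]
  obtain ⟨a, ha⟩ := Nn_dvd s δ
  have e : ((Ku L s * Nn s δ + Nn s δ / 2 : ℕ) : ℝ) = (Ku L s : ℝ) * Nn s δ + Nn s δ / 2 := by
    rw [ha]
    have e : 4 * a / 2 = 2 * a := by omega
    rw [e]
    push_cast
    ring
  rw [← e]
  unfold vd
  generalize (Ku L s * Nn s δ + Nn s δ / 2 : ℕ) = K
  apply Complex.ext
  · simp only [pt, Complex.add_re, Complex.neg_re, Complex.re_ofReal_mul, Prod.fst_sub,
      Complex.ofReal_re]
    push_cast
    ring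
  · simp only [pt, Complex.add_im, Complex.neg_im, Complex.im_ofReal_mul, Prod.snd_sub,
      Complex.ofReal_im]
    push_cast
    ring

end Vale.Agent.P167.H446.G
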