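import Vale.Agent.P167.H446.G.Flat
import Vale.Agent.P167.H318.Rel.Defs
import Vale.Agent.P167.H166.Pot

/-!
# P167, general `q`, [GEO-ASM]: the shapes are flat near `d` (318's structures `Fl`, `Lnd`, `Far`)
-/

set_option autoImplicit false

namespace Vale.Agent.P167.H446.G

open Vale.Agent.P167.QT
open Vale.Agent.P167.FK (eta0)
open Vale.Agent.P167.H318.Rel (Fl Lnd Far)
open Vale.Agent.P167.H825 (enl)
open Vale.Agent.P167.H718 (etaW opW mem_opW)

variable {P : Sh4} {ρ N : ℕ} {v₀ : ℤ × ℤ}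

theorem good_ext : FK.Good (ext N v₀ P) := by
  classical
  set O : Finset (ℤ × ℤ) :=
    (opW (enl P.S N) (Enl.qN (rot P) N (N / 2)) ((P.m - P.k) * N)).image (· + v₀) with hO
  have h : ext N v₀ P = FK.cf O eta0 O := by
    funext v
    unfold ext etaW FK.cf
    have hv : v ∈ O ↔
        v - v₀ ∈ opW (enl P.S N) (Enl.qN (rot P) N (N / 2)) ((P.m - P.k) * N) := by
      rw [hO, Finset.mem_image]
      constructor
      · rintro ⟨w, hw, rfl⟩
        rwa [add_sub_cancel_right]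
      · exact fun h => ⟨v - v₀, h, sub_add_cancel v v₀⟩
    by_cases h1 : v ∈ O
    · rw [if_pos h1]
      simp [h1, hv.1 h1]
    · rw [if_neg h1]
      have h2 : v - v₀ ∉ opW (enl P.S N) (Enl.qN (rot P) N (N / 2)) ((P.m - P.k) * N) :=
        fun h => h1 (hv.2 h)
      simp [h2, eta0]
  rw [h]
  exact FK.good_cf _ FK.good_eta0 _

theorem flat_arith (h : P.Ok ρ) : (0 : ℤ) ≤ (P.l : ℤ) - P.j := by
  have := h.j_lt
  omega

theorem fl_shape (h : P.Ok ρ) (hN : 0 < N) {R : ℤ} (hR : R + 1 ≤ (ρ : ℤ) * N) :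
    Fl (dom N v₀ P) (dom N v₀ P) (ext N v₀ P) v₀ R := by
  have h0 : 0 ≤ ((P.l : ℤ) - P.j) * N := mul_nonneg (flat_arith h) (by positivity)
  have hd : ∀ v ∈ FK.Bq v₀ R, (v ∈ dom N v₀ P ↔ v₀.2 ≤ v.2) := by
    intro v hv
    rw [H166.mem_Bq] at hv
    obtain ⟨h1, h2, h3, h4⟩ := hv
    exact dom_flat h hN (by linarith) (by linarith) (by linarith) (by linarith)
  refine ⟨good_ext, Finset.Subset.refl _, hd, hd, ?_⟩
  intro v hv _
  rw [H166.mem_Bq] at hv
  obtain ⟨h1, h2, h3, h4⟩ := hv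
  exact ext_false h hN (by linarith) (by linarith) (by linarith) (by linarith)

theorem lnd_shape (h : P.Ok ρ) (hN : 0 < N) {m K : ℤ} (h0 : 0 ≤ K * m)
    (h2 : 2 * (K * m) ≤ (ρ : ℤ) * N) :
    Lnd (dom N v₀ P) v₀ m (((P.l : ℤ) - P.j) * N + K * m) K (arcc N v₀ P) := by
  constructor
  · intro v h3 h4 h5 h6
    exact (dom_flat h hN (by linarith) (by linarith) (by linarith) (by linarith)).2 h5
  · intro x h3 h4 _
    exact arcc_line h hN rfl (by show _ ≤ x; linarith) (by show x ≤ _; linarith)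

theorem far_shape (h : P.Ok ρ) (hρ : 0 < ρ) (hN : 0 < N) {R : ℤ} (hR : R ≤ (ρ : ℤ) * N)
    (hR' : R ≤ ((P.l : ℤ) - P.j) * N) : Far v₀ R (arcc N v₀ P) := by
  intro w hw
  by_contra hlt
  push Not at hlt
  have h0 : 0 ≤ ((P.l : ℤ) - P.j) * N := mul_nonneg (flat_arith h) (by positivity)
  have h1 : |w.1 - v₀.1| < R ∧ |w.2 - v₀.2| < R := by
    unfold nm at hlt
    simpa using hlt
  obtain ⟨h2, h3⟩ := h1
  rw [abs_lt] at h2 h3
  obtain ⟨-, h4⟩ := arcc_far h hρ hN hw (by linarith) (by linarith) (by linarith) (by linarith)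
  linarith

end Vale.Agent.P167.H446.G
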