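import Vale.Agent.P167.H446.G.Defs
import Vale.Agent.P167.H713.Q.Bad
import Vale.Agent.P167.H72.SD.Wf

/-!
# P167, general `q`, [GEO-ASM]: the literal inputs

The sequence `Set6 Φ ψ δ N k p S ψn` is fixed; `C : Cst` are the real constants.
* `I_all` : the bound for all histories;
* `I_bad` : the weight of the bad histories;
* `Inp`, `I_cmp` : comparison of the laws;
* `I_shp` : shapes for all histories (`Cl` = closeness of the conformal data, see `Lit2`).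
-/

set_option autoImplicit false

namespace Vale.Agent.P167.H446.G

open Filter Topology Set
open Relation (ReflTransGen)
open Vale.Agent.P153.M1 (Expl)
open Vale.Agent.P145.FB (PStep)
open Vale.Agent.P167.QT
open Vale.Agent.P167.BR (hbox)
open Vale.Agent.P167.E6 (Medial pt region)
open Vale.Agent.P167.H411 (exn Set6)
open Vale.Agent.P167.H192 (ro)
open Vale.Agent.P167.H718 (Dq)
open Vale.Agent.P167.H72.SD (dk om NSup NSlo Up Lo Wf Ff)
open Vale.Agent.P167.H713.Q (Bad)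

/-- The real constants: `c`, `d` at the distances `Lc`, `Ld` of the target (the images of `X`, `X'`),
`m` the radius of the flat neighbourhoods, `B` a bound of the sizes of the shapes, `Y` the height of the
base point, `Rb` a bound of the polygons. -/
structure Cst where
  T : ℝ
  R : ℝ
  X : ℝ
  X' : ℝ
  Lc : ℝ
  Ld : ℝ
  m : ℝ
  B : ℝ
  Y : ℝ
  Rb : ℝ

/-- The constants are small relative to the flat radius `ρ` of the domains at the target. -/
structure Cst.Sm (C : Cst) (ρ : ℝ) : Prop where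
  m_pos : 0 < C.m
  m_Ld : 8 * C.m ≤ C.Ld
  Ld_Lc : C.Ld + 8 * C.m ≤ C.Lc
  Lc_le : C.Lc + 8 * C.m ≤ ρ

/-- The number of squares between the target and the mark at the distance `L`. -/
noncomputable def mq (L s δ : ℝ) : ℕ := Ku L s * Nn s δ + Nn s δ / 2

/-- The radius of the boxes at `d` used for the long clusters, in squares. -/
noncomputable def mb (m δ : ℝ) : ℤ := ⌊m / (8 * dl δ)⌋

/-- The small radius of the conflict pairs, in squares. -/
noncomputable def rS (s δ : ℝ) : ℕ := 8 * ⌈100 * s / δ⌉₊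

/-- The large radius of the conflict pairs, in squares. -/
noncomputable def rR (r δ : ℝ) : ℕ := ⌊r / δ⌋₊

section

variable {n : ℕ} (μ : ℝ) (C : Cst) (p : ZMod n → ℤ × ℤ) (k : ℕ) (S : Finset (ℤ × ℤ)) (δ r s : ℝ)
  (A : Hst) (j : ℕ)

/-- The frozen squares. -/
noncomputable def bad (c : Bool) : Finset (ℤ × ℤ) := Bad p k S A j δ c (rS s δ) (rR r δ)

/-- The target arc of the lattice domain: the exterior faces around the vertices before `c` (the site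
`c` is `mq C.Lc s δ` squares to the left of the target). -/
def wf : Set (ℤ × ℤ) := Wf p S (k - (mq C.Lc s δ + 1))

/-- The conditional probability of a long cluster of frozen squares. -/
noncomputable def prNS (c : Bool) : ℝ :=
  if c then FK.Pr (2 * Real.cos μ) (dk p k S A j) (om p k A)
    (NSup (dk p k S A j) (bad p k S δ r s A j true) (FK.Bq (vd p k C.Ld s δ) (mb C.m δ)))
  else FK.Pr (2 * Real.cos μ) (dk p k S A j) (om p k A)
    (NSlo (dk p k S A j) (om p k A) (bad p k S δ r s A j false)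
      (Ff (ro (p k)) (mq C.Lc s δ + 1) ((vd p k C.Ld s δ).1 - mb C.m δ) ((vd p k C.Ld s δ).1 + mb C.m δ)
        ((vd p k C.Ld s δ).2 - mb C.m δ) ((vd p k C.Ld s δ).2 + mb C.m δ)))

/-- The lattice relation of the explored domain and a shape. -/
def Inp (c : Bool) (P : Sh4) : Prop :=
  ∃ E : Finset (ℤ × ℤ), hbox (vd p k C.Ld s δ) (Nn s δ) ⊆ E ∧
    if c then Up p k S A j (bad p k S δ r s A j true) E (dom (Nn s δ) (vd p k C.Ld s δ) P)
      (ext (Nn s δ) (vd p k C.Ld s δ) P) (wf C p k S δ s) (arcc (Nn s δ) (vd p k C.Ld s δ) P)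
    else ∃ WP : Set (ℤ × ℤ), (∀ v ∈ WP, ∀ w ∈ WP, ReflTransGen (PStep
        (Vale.Agent.P167.op (ext (Nn s δ) (vd p k C.Ld s δ) P) ∩
          ((dom (Nn s δ) (vd p k C.Ld s δ) P : Finset (ℤ × ℤ)) : Set (ℤ × ℤ))ᶜ)) v w) ∧
      Lo p k S A j (bad p k S δ r s A j false) E (dom (Nn s δ) (vd p k C.Ld s δ) P)
        (ext (Nn s δ) (vd p k C.Ld s δ) P) (wf C p k S δ s) WP
        (arcc (Nn s δ) (vd p k C.Ld s δ) P)

end

section

variable (μ : ℝ) (C : Cst) (δ : ℕ → ℝ) (N k : ℕ → ℕ) (p : ∀ n, ZMod (N n) → ℤ × ℤ)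
  (S : ℕ → Finset (ℤ × ℤ)) (ψn : ℕ → ℂ → ℂ)

/-- **[ALL]** The bound for all histories. -/
def I_all : Prop :=
  ∃ M : ℝ, 0 < M ∧ ∃ s₀ : ℝ, 0 < s₀ ∧ ∀ s : ℝ, 0 < s → s ≤ s₀ → ∀ᶠ n in atTop,
    ∀ (A : Hst) (j : ℕ), Bef (exn δ N k p S ψn n) C.T C.R A j →
      ∀ P₀ ∈ Fam C.Ld C.Lc C.m C.B s, ∀ (Z : Finset (ℤ × ℤ)) (ζ : Cfg),
        Adm (vd (p n) (k n) C.Ld s (δ n)) 0 (Nn s (δ n)) Z ζ →
          QE.cexW (exn δ N k p S ψn n)
            (QE.wq ((2 * Real.cos μ) ^ 2) (N n) (p n) (k n) (S n))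
            (fun A' => fz (Dq (S n) (p n) (k n)) Z ζ (wf C (p n) (k n) (S n) (δ n) s)
              (QT.cf (p n) (k n) A')) A j ≤
            M * PZ μ (Nn s (δ n)) (vd (p n) (k n) C.Ld s (δ n)) P₀ Z ζ

/-- **[BAD]** The weight of the bad histories. -/
def I_bad : Prop :=
  ∀ (r η : ℝ), 0 < r → 0 < η → ∀ ε' : ℝ, 0 < ε' → ∃ s₀ : ℝ, 0 < s₀ ∧ ∀ s : ℝ, 0 < s → s ≤ s₀ →
    ∀ᶠ n in atTop, ∀ κ : Hst → ℕ, QE.BefIx (exn δ N k p S ψn n) C.T C.R κ →
      QE.ExW (exn δ N k p S ψn n).C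
        (QE.wq ((2 * Real.cos μ) ^ 2) (N n) (p n) (k n) (S n))
        ({A | ¬ ∀ c, prNS μ C (p n) (k n) (S n) (δ n) r s A (κ A) c ≤ η}.indicator 1) ≤ ε'

/-- **[CMP]** The comparison of the laws. -/
def I_cmp : Prop :=
  ∀ ε' : ℝ, 0 < ε' → ∃ η : ℝ, 0 < η ∧ ∃ s₀ : ℝ, 0 < s₀ ∧ ∀ s : ℝ, 0 < s → s ≤ s₀ →
    ∀ r : ℝ, 0 < r → ∀ᶠ n in atTop, ∀ (A : Hst) (j : ℕ),
      Bef (exn δ N k p S ψn n) C.T C.R A j → ∀ (c : Bool), ∀ P ∈ Fam C.Ld C.Lc C.m C.B s,
        Inp C (p n) (k n) (S n) (δ n) r s A j c P →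
        prNS μ C (p n) (k n) (S n) (δ n) r s A j c ≤ η →
          Ineq μ (exn δ N k p S ψn n) (QE.wq ((2 * Real.cos μ) ^ 2) (N n) (p n) (k n) (S n)) (p n)
            (k n) (Dq (S n) (p n) (k n)) (wf C (p n) (k n) (S n) (δ n) s)
            (vd (p n) (k n) C.Ld s (δ n)) (Nn s (δ n)) c ε' A j P

/-- **[SHP]** Shapes for all histories; `Cl h s n A j P` is the closeness of the conformal data. -/
def I_shp (Cl : ℝ → ℝ → ℕ → Hst → ℕ → Sh4 → Prop) : Prop :=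
  ∀ h : ℝ, 0 < h → ∃ r : ℝ, 0 < r ∧ ∃ s₀ : ℝ, 0 < s₀ ∧ ∀ s : ℝ, 0 < s → s ≤ s₀ →
    ∀ᶠ n in atTop, ∀ (A : Hst) (j : ℕ), Bef (exn δ N k p S ψn n) C.T C.R A j →
      ∀ c : Bool, ∃ P ∈ Fam C.Ld C.Lc C.m C.B s,
        Inp C (p n) (k n) (S n) (δ n) r s A j c P ∧ Cl h s n A j P

end

end Vale.Agent.P167.H446.G
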