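import Vale.Agent.P167.QT.Defs
import Vale.Agent.P167.XDL.Enl2

/-!
# P167, general `q`, [GEO-ASM]: the shapes near their flat part

For a shape `P` with `P.Ok ρ`, `N` squares per unit, `d` at the site `v₀`:
* `dom_flat` : the domain near the segment from `c` to `d`;
* `ext_false` : the squares below are closed;
* `PN_line`, `box_line` : the boundary sites near this segment;
* `arcc_line`, `arcc_far` : the target arc.
-/

set_option autoImplicit false

namespace Vale.Agent.P167.H446.G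

open Vale.Agent.P167.QT
open Vale.Agent.P167.E6 (IsPolygon Encloses dir face)
open Vale.Agent.P167.H825 (enl pdir dirOf)
open Vale.Agent.P167.H718 (etaW opW mem_opW)
open Vale.Agent.P167.Enl (PN qN mem_enl_div PN_inj PN_lin encloses_qN isPolygon_qN qN_nat)

variable {P : Sh4} {ρ N : ℕ} {v₀ : ℤ × ℤ}

theorem mem_dom {v : ℤ × ℤ} : v ∈ dom N v₀ P ↔ v - v₀ ∈ enl P.S N := by
  unfold dom
  rw [Finset.mem_image]
  constructor
  · rintro ⟨w, hw, rfl⟩
    rwa [add_sub_cancel_right]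
  · exact fun h => ⟨v - v₀, h, sub_add_cancel v v₀⟩

/-- The enlargement near the flat part. -/
theorem enl_flat (h : P.Ok ρ) (hN : 0 < N) {v : ℤ × ℤ}
    (h1 : -(((P.l : ℤ) - P.j + ρ) * N) ≤ v.1) (h2 : v.1 < ρ * N)
    (h3 : -((ρ : ℤ) * N) ≤ v.2) (h4 : v.2 < ρ * N) : v ∈ enl P.S N ↔ 0 ≤ v.2 := by
  have hN' : (0 : ℤ) < N := by exact_mod_cast hN
  rw [mem_enl_div hN, h.flat (v.1 / N, v.2 / N)]
  · show 0 ≤ v.2 / N ↔ 0 ≤ v.2
    rw [Int.le_ediv_iff_mul_le hN', zero_mul]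
  · show (P.j : ℤ) - P.l - ρ ≤ v.1 / N
    rw [Int.le_ediv_iff_mul_le hN']
    linarith [show ((P.j : ℤ) - P.l - ρ) * N = -(((P.l : ℤ) - P.j + ρ) * N) by ring]
  · show v.1 / N < ρ
    rw [Int.ediv_lt_iff_lt_mul hN']
    exact h2
  · show -(ρ : ℤ) ≤ v.2 / N
    rw [Int.le_ediv_iff_mul_le hN']
    linarith [show -(ρ : ℤ) * N = -((ρ : ℤ) * N) by ring]
  · show v.2 / N < ρ
    rw [Int.ediv_lt_iff_lt_mul hN']
    exact h4

/-- The domain near the flat part. -/
theorem dom_flat (h : P.Ok ρ) (hN : 0 < N) {v : ℤ × ℤ}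
    (h1 : v₀.1 - ((P.l : ℤ) - P.j + ρ) * N ≤ v.1) (h2 : v.1 < v₀.1 + ρ * N)
    (h3 : v₀.2 - (ρ : ℤ) * N ≤ v.2) (h4 : v.2 < v₀.2 + ρ * N) :
    v ∈ dom N v₀ P ↔ v₀.2 ≤ v.2 := by
  rw [mem_dom, enl_flat h hN (v := v - v₀)]
  · show 0 ≤ v.2 - v₀.2 ↔ _
    omega
  · show _ ≤ v.1 - v₀.1
    linarith
  · show v.1 - v₀.1 < _
    linarith
  · show _ ≤ v.2 - v₀.2
    linarith
  · show v.2 - v₀.2 < _
    linarith

theorem m_pos (h : P.Ok ρ) : 0 < P.m := by
  have := h.poly.1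
  omega

/-- The boundary sites on the flat line. -/
theorem PN_line (h : P.Ok ρ) (hN : 0 < N) {i : ℕ} (h1 : P.j * N ≤ i + ρ * N)
    (h2 : i < (P.m + 1) * N) : PN P.q N i = ((i : ℤ) - P.l * N, 0) := by
  have e := Nat.div_add_mod' i N
  have hj := Nat.mod_lt i hN
  set a := i / N with ha
  set b := i % N with hb
  have ha1 : P.j ≤ a + ρ := by
    by_contra hcon
    push Not at hcon
    have h3 : (a + ρ + 1) * N ≤ P.j * N := Nat.mul_le_mul_right _ hcon
    have h4 : (a + ρ + 1) * N = a * N + ρ * N + N := by ring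
    omega
  have ha2 : a < P.m + 1 := by
    rw [ha, Nat.div_lt_iff_lt_mul hN]
    exact h2
  have q1 := h.line a ha1 (by omega)
  have q2 := h.line (a + 1) (by omega) (by omega)
  have hd : pdir P.q a = 0 := by
    unfold pdir
    push_cast at q2
    rw [q2, q1]
    simp [dirOf]
  rw [← e, PN_lin hN hj, q1, hd]
  have hd0 : dir 0 = ((1 : ℤ), (0 : ℤ)) := rfl
  rw [hd0]
  simp only [Prod.smul_mk, smul_eq_mul, mul_zero, mul_one, Prod.mk_add_mk, add_zero,
    Prod.mk.injEq, and_true]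
  push_cast
  ring

/-- A boundary site near the flat part is on the flat line. -/
theorem box_line (h : P.Ok ρ) (hN : 0 < N) {i : ℕ}
    (h1 : -(((P.l : ℤ) - P.j + ρ) * N) < (PN P.q N i).1) (h2 : (PN P.q N i).1 < ρ * N)
    (h3 : -((ρ : ℤ) * N) < (PN P.q N i).2) (h4 : (PN P.q N i).2 < ρ * N) :
    (PN P.q N i).2 = 0 ∧ ∃ i' : ℕ, (i' : ℤ) = P.l * N + (PN P.q N i).1 ∧
      (i : ZMod (P.m * N)) = (i' : ZMod (P.m * N)) := by
  have hm := m_pos h
  have : NeZero P.m := ⟨hm.ne'⟩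
  have hmN : NeZero (P.m * N) := ⟨by positivity⟩
  set z := PN P.q N i with hz
  -- the second coordinate
  have hy : z.2 = 0 := by
    have hE := encloses_qN hN h.poly h.encl 0
    obtain ⟨r, hr⟩ := (isPolygon_qN hN h.poly 0).2.2 (i : ZMod (P.m * N))
    have hq : qN P.q N 0 (i : ZMod (P.m * N)) = z := by rw [qN_nat hN, add_zero]
    rw [hq] at hr
    obtain ⟨f1, f2⟩ := (hE z r).1 ⟨i, hq, hr⟩
    have key : ∀ t : Fin 4, (0 < z.2 → face z t ∈ enl P.S N) ∧ (z.2 < 0 → face z t ∉ enl P.S N) := by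
      intro t
      have hf : (face z t).1 = z.1 ∨ (face z t).1 = z.1 - 1 := by
        fin_cases t <;> simp [face] <;> omega
      have hf2 : (face z t).2 = z.2 ∨ (face z t).2 = z.2 - 1 := by
        fin_cases t <;> simp [face] <;> omega
      have hiff := enl_flat h hN (v := face z t) (by rcases hf with h | h <;> rw [h] <;> linarith)
        (by rcases hf with h | h <;> rw [h] <;> linarith)
        (by rcases hf2 with h | h <;> rw [h] <;> linarith)
        (by rcases hf2 with h | h <;> rw [h] <;> linarith)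
      constructor
      · intro h5
        rw [hiff]
        rcases hf2 with h | h <;> rw [h] <;> omega
      · intro h5
        rw [hiff]
        rcases hf2 with h | h <;> rw [h] <;> omega
    by_contra hne
    rcases lt_or_gt_of_ne hne with h5 | h5
    · exact (key r).2 h5 f1
    · exact f2 ((key (r - 1)).1 h5)
  refine ⟨hy, ?_⟩
  have hjl : P.j + ρ ≤ P.l := h.j_lt
  have hlm : P.l + ρ ≤ P.m := h.l_lt
  have hkj : P.k + ρ + 1 ≤ P.j := h.k_lt
  have e1 : (((P.l : ℤ) - P.j + ρ) * N) = (P.l : ℤ) * N - (P.j : ℤ) * N + ρ * N := by ring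
  have e2 : (ρ : ℤ) * N ≤ (P.j : ℤ) * N := by
    have : ρ * N ≤ P.j * N := Nat.mul_le_mul_right _ (by omega)
    exact_mod_cast this
  have hpos : 0 ≤ (P.l : ℤ) * N + z.1 := by linarith
  refine ⟨((P.l : ℤ) * N + z.1).toNat, Int.toNat_of_nonneg hpos, ?_⟩
  refine PN_inj hN h.poly ?_
  have e3 : (((P.l : ℤ) * N + z.1).toNat : ℤ) = (P.l : ℤ) * N + z.1 := Int.toNat_of_nonneg hpos
  rw [PN_line h hN (i := ((P.l : ℤ) * N + z.1).toNat)]
  · rw [e3]
    rw [← hz]
    apply Prod.ext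
    · show z.1 = (P.l : ℤ) * N + z.1 - P.l * N
      ring
    · exact hy
  · have : ((P.j * N : ℕ) : ℤ) ≤ (((P.l : ℤ) * N + z.1).toNat + ρ * N : ℕ) := by
      push_cast
      rw [e3]
      linarith
    exact_mod_cast this
  · have : ((((P.l : ℤ) * N + z.1).toNat : ℕ) : ℤ) < ((P.m + 1) * N : ℕ) := by
      push_cast
      rw [e3]
      have : (P.l + ρ) * N ≤ P.m * N := Nat.mul_le_mul_right _ hlm
      have h6 : (((P.l + ρ) * N : ℕ) : ℤ) ≤ ((P.m * N : ℕ) : ℤ) := by exact_mod_cast this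
      push_cast at h6
      have h7 : (0 : ℤ) < N := by exact_mod_cast hN
      nlinarith
    exact_mod_cast this

/-- The sites of the target arc near the flat part are to the left of `c`. -/
theorem arcc_far (h : P.Ok ρ) (hρ : 0 < ρ) (hN : 0 < N) {w : ℤ × ℤ} (hw : w ∈ arcc N v₀ P)
    (h1 : v₀.1 - ((P.l : ℤ) - P.j + ρ) * N < w.1) (h2 : w.1 < v₀.1 + ρ * N)
    (h3 : v₀.2 - (ρ : ℤ) * N < w.2) (h4 : w.2 < v₀.2 + ρ * N) :
    w.2 = v₀.2 ∧ w.1 ≤ v₀.1 - ((P.l : ℤ) - P.j) * N := by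
  obtain ⟨i, hi1, hi2, rfl⟩ := hw
  simp only [Prod.fst_add, Prod.snd_add] at h1 h2 h3 h4 ⊢
  obtain ⟨hy, i', hi', he⟩ := box_line h hN (i := i) (by linarith) (by linarith) (by linarith)
    (by linarith)
  refine ⟨by rw [hy]; ring, ?_⟩
  have hm := m_pos h
  have hjl : P.j + ρ ≤ P.l := h.j_lt
  have hlm : P.l + ρ ≤ P.m := h.l_lt
  have hkj : P.k + ρ + 1 ≤ P.j := h.k_lt
  rw [ZMod.natCast_eq_natCast_iff'] at he
  have hi3 : i < P.m * N :=
    lt_of_le_of_lt hi2 (Nat.mul_lt_mul_of_pos_right (by omega) hN)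
  have hi4 : (i' : ℤ) < (P.l : ℤ) * N + ρ * N := by rw [hi']; linarith
  have hi5 : i' < P.m * N := by
    have h6 : (P.l + ρ) * N ≤ P.m * N := Nat.mul_le_mul_right _ hlm
    have h7 : (i' : ℤ) < ((P.l + ρ) * N : ℕ) := by push_cast; linarith
    have h8 : i' < (P.l + ρ) * N := by exact_mod_cast h7
    omega
  rw [Nat.mod_eq_of_lt hi3, Nat.mod_eq_of_lt hi5] at he
  have hi6 : (i : ℤ) ≤ (P.j : ℤ) * N := by exact_mod_cast hi2
  rw [he, hi'] at hi6
  linarith

/-- The sites of the line to the left of `c` are in the target arc. -/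
theorem arcc_line (h : P.Ok ρ) (hN : 0 < N) {w : ℤ × ℤ} (h0 : w.2 = v₀.2)
    (h1 : v₀.1 - ((P.l : ℤ) - P.j + ρ) * N ≤ w.1) (h2 : w.1 ≤ v₀.1 - ((P.l : ℤ) - P.j) * N) :
    w ∈ arcc N v₀ P := by
  have hkj : P.k + ρ + 1 ≤ P.j := h.k_lt
  have hjl : P.j + ρ ≤ P.l := h.j_lt
  have hlm : P.l + ρ ≤ P.m := h.l_lt
  have e1 : v₀.1 - ((P.l : ℤ) - P.j + ρ) * N = v₀.1 - (P.l : ℤ) * N + (P.j : ℤ) * N - ρ * N := by
    ring
  have e2 : v₀.1 - ((P.l : ℤ) - P.j) * N = v₀.1 - (P.l : ℤ) * N + (P.j : ℤ) * N := by ring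
  have hk : ((P.k : ℤ) + ρ + 1) * N ≤ (P.j : ℤ) * N := by
    have : (P.k + ρ + 1) * N ≤ P.j * N := Nat.mul_le_mul_right _ hkj
    exact_mod_cast this
  have hjm : (P.j : ℤ) * N ≤ (P.m : ℤ) * N := by
    have : P.j * N ≤ P.m * N := Nat.mul_le_mul_right _ (by omega)
    exact_mod_cast this
  have hN' : (0 : ℤ) < N := by exact_mod_cast hN
  have hpos : 0 ≤ (P.l : ℤ) * N + (w.1 - v₀.1) := by
    have : 0 ≤ (P.k : ℤ) * N := by positivity
    nlinarith
  set i := ((P.l : ℤ) * N + (w.1 - v₀.1)).toNat with hi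
  have e3 : (i : ℤ) = (P.l : ℤ) * N + (w.1 - v₀.1) := Int.toNat_of_nonneg hpos
  refine ⟨i, ?_, ?_, ?_⟩
  · have h5 : (P.k : ℤ) * N + N ≤ i := by rw [e3]; nlinarith
    have h6 : P.k * N + N ≤ i := by exact_mod_cast h5
    omega
  · have h5 : (i : ℤ) ≤ (P.j : ℤ) * N := by rw [e3]; linarith
    exact_mod_cast h5
  · rw [PN_line h hN]
    · rw [e3]
      apply Prod.ext
      · show (P.l : ℤ) * N + (w.1 - v₀.1) - P.l * N + v₀.1 = w.1
        ring
      · show 0 + v₀.2 = w.2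
        rw [h0, zero_add]
    · have h5 : (P.j : ℤ) * N ≤ i + ρ * N := by rw [e3]; linarith
      exact_mod_cast h5
    · have h5 : (i : ℤ) < ((P.m : ℤ) + 1) * N := by rw [e3]; nlinarith
      exact_mod_cast h5

theorem PN_rot (hN : 0 < N) (i : ℕ) : PN (rot P) N i = PN P.q N (i + P.k * N) := by
  have e1 : ∀ a : ℕ, rot P (a : ZMod P.m) = P.q ((a + P.k : ℕ) : ZMod P.m) := by
    intro a
    unfold rot
    push_cast
    rfl
  have e2 : ∀ a : ℕ, pdir (rot P) a = pdir P.q (a + P.k) := by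
    intro a
    unfold pdir
    have h1 := e1 (a + 1)
    have h2 := e1 a
    push_cast at h1 h2 ⊢
    rw [h1, h2]
    congr 3
    ring
  unfold PN
  rw [Nat.add_mul_div_right _ _ hN, Nat.add_mul_mod_self_right, e1, e2]

/-- The squares outside of the domain near the flat part are closed. -/
theorem ext_false (h : P.Ok ρ) (hN : 0 < N) {v : ℤ × ℤ}
    (h1 : v₀.1 - ((P.l : ℤ) - P.j + ρ) * N < v.1) (h2 : v.1 + 1 < v₀.1 + ρ * N)
    (h3 : v₀.2 - (ρ : ℤ) * N < v.2) (h4 : v.2 + 1 < v₀.2 + ρ * N) : ext N v₀ P v = false := by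
  unfold ext etaW
  rw [decide_eq_false_iff_not]
  intro hmem
  obtain ⟨⟨J, hJ1, hJ2, -, r, hr⟩, -⟩ := mem_opW.1 hmem
  have hm := m_pos h
  have : NeZero P.m := ⟨hm.ne'⟩
  have hmN : NeZero (P.m * N) := ⟨by positivity⟩
  have hjl : P.j + ρ ≤ P.l := h.j_lt
  have hlm : P.l + ρ ≤ P.m := h.l_lt
  have hkj : P.k + ρ + 1 ≤ P.j := h.k_lt
  rw [qN_nat hN, PN_rot hN] at hr
  set z := PN P.q N (J + N / 2 + P.k * N) with hz
  have hf : v.1 - v₀.1 = z.1 ∨ v.1 - v₀.1 = z.1 - 1 := by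
    have := congrArg Prod.fst hr
    simp only [Prod.fst_sub] at this
    rw [this]
    fin_cases r <;> simp [face] <;> omega
  have hf2 : v.2 - v₀.2 = z.2 ∨ v.2 - v₀.2 = z.2 - 1 := by
    have := congrArg Prod.snd hr
    simp only [Prod.snd_sub] at this
    rw [this]
    fin_cases r <;> simp [face] <;> omega
  obtain ⟨-, i', hi', he⟩ := box_line h hN (i := J + N / 2 + P.k * N)
    (by rw [← hz]; rcases hf with h | h <;> linarith)
    (by rw [← hz]; rcases hf with h | h <;> linarith)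
    (by rw [← hz]; rcases hf2 with h | h <;> linarith)
    (by rw [← hz]; rcases hf2 with h | h <;> linarith)
  rw [← hz] at hi'
  rw [ZMod.natCast_eq_natCast_iff'] at he
  have hk1 : (P.m - P.k) * N + P.k * N = P.m * N := by
    rw [← Nat.add_mul]
    congr 1
    omega
  have hge : P.m * N ≤ J + N / 2 + P.k * N := by omega
  rw [Nat.mod_eq_sub_mod hge, Nat.mod_eq_of_lt (a := J + N / 2 + P.k * N - P.m * N)
    (by
      have h5 : (P.k + 1) * N ≤ P.m * N := Nat.mul_le_mul_right _ (by omega)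
      have h6 : (P.k + 1) * N = P.k * N + N := by ring
      omega)] at he
  have e1 : v₀.1 - ((P.l : ℤ) - P.j + ρ) * N = v₀.1 - (P.l : ℤ) * N + (P.j : ℤ) * N - ρ * N := by
    ring
  have hlow : (P.j : ℤ) * N - ρ * N < i' := by
    rw [hi']
    rcases hf with h | h <;> linarith
  have hi5 : i' < P.m * N := by
    have h6 : (P.l + ρ) * N ≤ P.m * N := Nat.mul_le_mul_right _ hlm
    have h7 : (i' : ℤ) < ((P.l + ρ) * N : ℕ) := by
      push_cast
      rw [hi']
      rcases hf with h | h <;> linarith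
    have h8 : i' < (P.l + ρ) * N := by exact_mod_cast h7
    omega
  rw [Nat.mod_eq_of_lt hi5] at he
  have hk2 : ((P.k : ℤ) + ρ + 1) * N ≤ (P.j : ℤ) * N := by
    have : (P.k + ρ + 1) * N ≤ P.j * N := Nat.mul_le_mul_right _ hkj
    exact_mod_cast this
  have hi6 : (P.k : ℤ) * N + N < i' := by linarith
  have hi7 : P.k * N + N < i' := by exact_mod_cast hi6
  omega

end Vale.Agent.P167.H446.G
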