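import Vale.Agent.P167.QT.Defs
import Vale.Agent.P167.H756.Exn

/-!
# P167, general `q`, [GEO-ASM]: the combination of the scales

`comb`: the conclusion of `GeoQ` for one sequence from
* `hShp` (shapes for good histories), `hCmp` (comparison of the laws), `hBad` (weight of the bad
  histories), `hCl` (conformal closeness), `hAll` (the bound for all histories).
-/

set_option autoImplicit false

namespace Vale.Agent.P167.H446.G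

open Filter Topology Set
open Vale.Agent.P153.M1 (Expl)
open Vale.Agent.P167.QT
open Vale.Agent.P167.BR (hbox)
open Vale.Agent.P167.E6 (Medial)
open Vale.Agent.P167.H411 (exn Set6)

/-- The histories. -/
abbrev Hst : Type := Finset (Sym2 (ℤ × ℤ))

/-- The history `A` up to the index `j` is before the exit. -/
def Bef (X : Expl Hst Medial) (T R : ℝ) (A : Hst) (j : ℕ) : Prop :=
  A ∈ X.C ∧ j < X.K A ∧ ∀ i < j, X.c A i ≤ T ∧ |X.V A i| ≤ R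

/-- The one sided comparison: `c = true` upper bound, `c = false` lower bound. -/
def Ineq (μ : ℝ) (X : Expl Hst Medial) (w : Hst → ℝ) {n : ℕ} (p : ZMod n → ℤ × ℤ) (k : ℕ)
    (Dc : Finset (ℤ × ℤ)) (W : Set (ℤ × ℤ)) (v₀ : ℤ × ℤ) (N : ℕ) (c : Bool) (ε' : ℝ) (A : Hst)
    (j : ℕ) (P : Sh4) : Prop :=
  ∀ (Z : Finset (ℤ × ℤ)) (ζ : Cfg), Adm v₀ 0 N Z ζ →
    if c then
      QE.cexW X w (fun A' => fz Dc Z ζ W (cf p k A')) A j ≤ (1 + ε') * PZ μ N v₀ P Z ζ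
    else
      (1 - ε') * PZ μ N v₀ P Z ζ ≤ QE.cexW X w (fun A' => fz Dc Z ζ W (cf p k A')) A j

/-- The closeness of the conformal quantities. -/
def ClQ (μ ε : ℝ) (X : Expl Hst Medial) (b : ℝ) (A : Hst) (j : ℕ) (P P₀ : Sh4) : Prop :=
  ∀ u v u₀ w₀ : ℝ, P.Pos u v → P₀.Pos u₀ w₀ →
    |(u ^ (μ / Real.pi) * v ^ Vale.Agent.P167.H411.Q.hQ μ) /
        (u₀ ^ (μ / Real.pi) * w₀ ^ Vale.Agent.P167.H411.Q.hQ μ) -
      QE.obsQ (μ / Real.pi) (X.W A) b (X.c A j)| ≤ ε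

/-- The conclusion for one sequence. -/
def GeoOne (μ : ℝ) (δ : ℕ → ℝ) (N k : ℕ → ℕ) (p : ∀ n, ZMod (N n) → ℤ × ℤ)
    (S : ℕ → Finset (ℤ × ℤ)) (ψn : ℕ → ℂ → ℂ) (T R b ε : ℝ) : Prop :=
  ∃ M : ℝ, 0 < M ∧ ∀ ε' : ℝ, 0 < ε' →
    ∃ (Sh : Set Sh4) (P₀ : ℕ → Sh4) (r₁ : ℝ) (N' : ℕ → ℕ), Sh.Finite ∧ (∀ n, P₀ n ∈ Sh) ∧
      (∀ P ∈ Sh, P.Ok 2 ∧ ∃ u v, P.Pos u v) ∧ 0 < r₁ ∧ r₁ ≤ 1 ∧ Tendsto N' atTop atTop ∧
      (∀ n, 4 ∣ N' n) ∧ ∀ r₀ : ℝ, 0 < r₀ → ∀ᶠ n in atTop,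
        GeoAt μ (exn δ N k p S ψn n) (QE.wq ((2 * Real.cos μ) ^ 2) (N n) (p n) (k n) (S n)) (p n)
          (k n) T R b M ε ε' r₀ r₁ Sh (P₀ n) (N' n)

theorem adm_zero {v₀ : ℤ × ℤ} {r : ℤ} {N : ℕ} {Z : Finset (ℤ × ℤ)} {ζ : Cfg}
    (h : Adm v₀ r ⌊(1 : ℝ) * N⌋ Z ζ) : Adm v₀ 0 N Z ζ := by
  refine ⟨?_, ?_, h.sld⟩
  · intro v hv
    unfold hbox at hv
    rw [Finset.mem_product, Finset.mem_Icc, Finset.mem_Icc] at hv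
    omega
  · have h1 := h.sub
    rwa [one_mul, Int.floor_natCast] at h1

section

variable {μ : ℝ} {Φ : (ℝ × ℝ) ≃ₜ (ℝ × ℝ)} {ψ : ℂ → ℂ} {δ : ℕ → ℝ} {N k : ℕ → ℕ}
  {p : ∀ n, ZMod (N n) → ℤ × ℤ} {S : ℕ → Finset (ℤ × ℤ)} {ψn : ℕ → ℂ → ℂ} {T R b ε : ℝ}

/-- **The combination of the scales.** -/
theorem comb (H6 : Set6 Φ ψ δ N k p S ψn) (hq : 0 < Real.cos μ) {α : Type}
    (Fam : ℝ → Set Sh4) (hfin : ∀ s, 0 < s → (Fam s).Finite)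
    (hok : ∀ s, 0 < s → ∀ P ∈ Fam s, P.Ok 2 ∧ ∃ u v, P.Pos u v)
    (v₀ : ℝ → ℕ → ℤ × ℤ) (hev : ∀ s n, Even ((v₀ s n).1 + (v₀ s n).2))
    (Dc : ℝ → ℕ → Finset (ℤ × ℤ)) (W : ℝ → ℕ → Set (ℤ × ℤ)) (N' : ℝ → ℕ → ℕ)
    (hN : ∀ s, 0 < s → Tendsto (N' s) atTop atTop) (h4 : ∀ s n, 4 ∣ N' s n)
    (GH : α → ℝ → ℕ → Hst → ℕ → Prop)
    (Inp : Bool → α → ℝ → ℕ → Hst → ℕ → Sh4 → Prop)
    (NS : Bool → α → ℝ → ℕ → Hst → ℕ → ℝ → Prop)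
    (Cl : ℝ → ℝ → ℕ → Hst → ℕ → Sh4 → Prop)
    (hShp : ∀ t : ℝ, 0 < t → ∃ a : α, ∃ s₀ : ℝ, 0 < s₀ ∧ ∀ s : ℝ, 0 < s → s ≤ s₀ →
      ∀ᶠ n in atTop, ∀ (A : Hst) (j : ℕ), Bef (exn δ N k p S ψn n) T R A j → GH a s n A j →
        ∀ c : Bool, ∃ P ∈ Fam s, Inp c a s n A j P ∧ Cl t s n A j P)
    (hCmp : ∀ ε' : ℝ, 0 < ε' → ∃ η : ℝ, 0 < η ∧ ∃ s₀ : ℝ, 0 < s₀ ∧ ∀ s : ℝ, 0 < s → s ≤ s₀ →
      ∀ a : α, ∀ᶠ n in atTop, ∀ (A : Hst) (j : ℕ), Bef (exn δ N k p S ψn n) T R A j →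
        ∀ (c : Bool), ∀ P ∈ Fam s, Inp c a s n A j P → NS c a s n A j η →
          Ineq μ (exn δ N k p S ψn n) (QE.wq ((2 * Real.cos μ) ^ 2) (N n) (p n) (k n) (S n)) (p n)
            (k n) (Dc s n) (W s n) (v₀ s n) (N' s n) c ε' A j P)
    (hBad : ∀ (a : α) (η : ℝ), 0 < η → ∀ ε' : ℝ, 0 < ε' → ∃ s₀ : ℝ, 0 < s₀ ∧ ∀ s : ℝ, 0 < s →
      s ≤ s₀ → ∀ᶠ n in atTop, ∀ κ : Hst → ℕ, QE.BefIx (exn δ N k p S ψn n) T R κ →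
        QE.ExW (exn δ N k p S ψn n).C
          (QE.wq ((2 * Real.cos μ) ^ 2) (N n) (p n) (k n) (S n))
          ({A | ¬ (GH a s n A (κ A) ∧ ∀ c, NS c a s n A (κ A) η)}.indicator 1) ≤ ε')
    (hCl : ∃ t : ℝ, 0 < t ∧ ∃ s₀ : ℝ, 0 < s₀ ∧ ∀ s : ℝ, 0 < s → s ≤ s₀ → ∀ᶠ n in atTop,
      ∀ (A : Hst) (j : ℕ) (A' : Hst) (P P₀ : Sh4), Bef (exn δ N k p S ψn n) T R A j →
        Bef (exn δ N k p S ψn n) T R A' 0 → P ∈ Fam s → P₀ ∈ Fam s → Cl t s n A j P →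
          Cl t s n A' 0 P₀ → ClQ μ ε (exn δ N k p S ψn n) b A j P P₀)
    (hAll : ∃ M : ℝ, 0 < M ∧ ∃ s₀ : ℝ, 0 < s₀ ∧ ∀ s : ℝ, 0 < s → s ≤ s₀ → ∀ᶠ n in atTop,
      ∀ (A : Hst) (j : ℕ), Bef (exn δ N k p S ψn n) T R A j → ∀ P₀ ∈ Fam s,
        ∀ (Z : Finset (ℤ × ℤ)) (ζ : Cfg), Adm (v₀ s n) 0 (N' s n) Z ζ →
          QE.cexW (exn δ N k p S ψn n)
            (QE.wq ((2 * Real.cos μ) ^ 2) (N n) (p n) (k n) (S n))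
            (fun A' => fz (Dc s n) Z ζ (W s n) (cf (p n) (k n) A')) A j ≤
              M * PZ μ (N' s n) (v₀ s n) P₀ Z ζ) :
    GeoOne μ δ N k p S ψn T R b ε := by
  classical
  have hq2 : 0 < (2 * Real.cos μ) ^ 2 := by positivity
  obtain ⟨t, ht, s₁, hs₁, hCl⟩ := hCl
  obtain ⟨M, hM, s₂, hs₂, hAll⟩ := hAll
  refine ⟨M, hM, fun ε' hε' => ?_⟩
  obtain ⟨a, s₃, hs₃, hShp⟩ := hShp t ht
  obtain ⟨η, hη, s₄, hs₄, hCmp⟩ := hCmp ε' hε'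
  obtain ⟨s₅, hs₅, hBad⟩ := hBad a η hη (min ε' (1 / 2)) (lt_min hε' (by norm_num))
  -- the scale
  obtain ⟨s, hs, h1, h2, h3, h4', h5⟩ : ∃ s : ℝ, 0 < s ∧ s ≤ s₁ ∧ s ≤ s₂ ∧ s ≤ s₃ ∧ s ≤ s₄ ∧
      s ≤ s₅ := by
    refine ⟨min s₁ (min s₂ (min s₃ (min s₄ s₅))), ?_, ?_, ?_, ?_, ?_, ?_⟩
    · exact lt_min hs₁ (lt_min hs₂ (lt_min hs₃ (lt_min hs₄ hs₅)))
    all_goals simp
  have hCl' := hCl s hs h1
  have hAll' := hAll s hs h2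
  have hShp' := hShp s hs h3
  have hCmp' := hCmp s hs h4' a
  have hBad' := hBad s hs h5
  -- the weights
  have hw : ∀ (n : ℕ) (A : Hst), 0 <
      QE.wq ((2 * Real.cos μ) ^ 2) (N n) (p n) (k n) (S n) A := fun n A => QE.wq_pos hq2 _ _ _ _ A
  -- the exploration at time `0`
  have hzero : ∀ᶠ n in atTop, ∃ A : Hst, Bef (exn δ N k p S ψn n) T R A 0 ∧
      ∃ P ∈ Fam s, Cl t s n A 0 P := by
    filter_upwards [hShp', hBad', H411.good_ev H6.appr] with n hn1 hn2 hn3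
    have hwf : (exn δ N k p S ψn n).WF := H411.DC.expl_wf (H756.wf_of H6 hn3) (H6.uni n hn3)
    have h0 : QE.BefIx (exn δ N k p S ψn n) T R (fun _ => 0) :=
      ⟨fun _ _ _ _ _ => rfl, fun h hh => ⟨hwf.pos h hh, fun j hj => absurd hj (Nat.not_lt_zero j)⟩⟩
    have h1 := hn2 _ h0
    by_contra hcon
    push Not at hcon
    have h2 : (1 : ℝ) ≤ QE.ExW (exn δ N k p S ψn n).C
          (QE.wq ((2 * Real.cos μ) ^ 2) (N n) (p n) (k n) (S n))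
          ({A | ¬ (GH a s n A 0 ∧ ∀ c, NS c a s n A 0 η)}.indicator 1) := by
      rw [← QE.exW_const hwf.fin hwf.ne (w := QE.wq ((2 * Real.cos μ) ^ 2) (N n) (p n) (k n) (S n))
        (fun A _ => hw n A) 1]
      refine QE.exW_mono hwf.fin (fun A _ => hw n A) fun A hA => ?_
      have hB : Bef (exn δ N k p S ψn n) T R A 0 :=
        ⟨hA, hwf.pos A hA, fun j hj => absurd hj (by omega)⟩
      have hnot : A ∈ ({A | ¬ (GH a s n A 0 ∧ ∀ c, NS c a s n A 0 η)} : Set Hst) := by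
        rintro ⟨hg, -⟩
        obtain ⟨P, hP, -, hc⟩ := hn1 A 0 hB hg true
        exact hcon A hB P hP hc
      rw [indicator_of_mem hnot]
      rfl
    have := (h2.trans h1).trans (min_le_right _ _)
    norm_num at this
  -- the shapes at time `0`
  have hne : (Fam s).Nonempty := by
    obtain ⟨n, A, -, P, hP, -⟩ := hzero.exists
    exact ⟨P, hP⟩
  obtain ⟨Pd, hPd⟩ := hne
  have hP0 : ∀ n : ℕ, ∃ P₀ : Sh4, P₀ ∈ Fam s ∧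
      ((∃ A : Hst, Bef (exn δ N k p S ψn n) T R A 0 ∧ ∃ P ∈ Fam s, Cl t s n A 0 P) →
        ∃ A : Hst, Bef (exn δ N k p S ψn n) T R A 0 ∧ Cl t s n A 0 P₀) := by
    intro n
    by_cases h : ∃ A : Hst, Bef (exn δ N k p S ψn n) T R A 0 ∧ ∃ P ∈ Fam s, Cl t s n A 0 P
    · obtain ⟨A, hA, P, hP, hc⟩ := h
      exact ⟨P, hP, fun _ => ⟨A, hA, hc⟩⟩
    · exact ⟨Pd, hPd, fun h' => absurd h' h⟩
  choose P₀ hP₀ hP₀' using hP0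
  refine ⟨Fam s, P₀, 1, N' s, hfin s hs, hP₀, hok s hs, one_pos, le_rfl, hN s hs, h4 s,
    fun r₀ hr₀ => ?_⟩
  filter_upwards [hCl', hAll', hShp', hCmp', hBad', hzero, H411.good_ev H6.appr] with
    n hnC hnA hnS hnP hnB hnz hng
  have hwf : (exn δ N k p S ψn n).WF := H411.DC.expl_wf (H756.wf_of H6 hng) (H6.uni n hng)
  obtain ⟨A₀, hA₀, hc₀⟩ := hP₀' n hnz
  refine ⟨v₀ s n, Dc s n, W s n, hev s n, fun κ hκ => ⟨fun A hA Z ζ hZ => ?_, ?_⟩⟩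
  · exact hnA A (κ A) ⟨hA, hκ.2 A hA⟩ (P₀ n) (hP₀ n) Z ζ (adm_zero hZ)
  · refine le_trans (QE.exW_mono hwf.fin (fun A _ => hw n A)
      (g := ({A | ¬ (GH a s n A (κ A) ∧ ∀ c, NS c a s n A (κ A) η)} : Set Hst).indicator 1)
      fun A hA => ?_) ((hnB κ hκ).trans (min_le_left _ _))
    by_cases hg : A ∈ ({A | ¬ (GH a s n A (κ A) ∧ ∀ c, NS c a s n A (κ A) η)} : Set Hst)
    · rw [indicator_of_mem hg]
      exact indicator_le_self' (fun _ _ => zero_le_one) A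
    · rw [indicator_of_notMem hg]
      have hgood : GH a s n A (κ A) ∧ ∀ c, NS c a s n A (κ A) η := not_not.1 hg
      have hB : Bef (exn δ N k p S ψn n) T R A (κ A) := ⟨hA, hκ.2 A hA⟩
      obtain ⟨P1, hP1, hi1, hc1⟩ := hnS A (κ A) hB hgood.1 false
      obtain ⟨P2, hP2, hi2, hc2⟩ := hnS A (κ A) hB hgood.1 true
      have e1 := hnP A (κ A) hB false P1 hP1 hi1 (hgood.2 false)
      have e2 := hnP A (κ A) hB true P2 hP2 hi2 (hgood.2 true)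
      rw [indicator_of_notMem]
      intro hcon
      refine hcon ⟨P1, hP1, P2, hP2, fun Z ζ hZ => ⟨e1 Z ζ (adm_zero hZ), e2 Z ζ (adm_zero hZ)⟩, ?_⟩
      rintro Q (rfl | rfl) u v u₀ w₀ hu hu₀
      · exact hnC A (κ A) A₀ Q (P₀ n) hB hA₀ hP1 (hP₀ n) hc1 hc₀ u v u₀ w₀ hu hu₀
      · exact hnC A (κ A) A₀ Q (P₀ n) hB hA₀ hP2 (hP₀ n) hc2 hc₀ u v u₀ w₀ hu hu₀

end

end Vale.Agent.P167.H446.G
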