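import Vale.Agent.P167.H446.G.Comb
import Vale.Agent.P167.H446.G.Arith
import Vale.Agent.P167.H72.SD.Lat3
import Vale.Agent.P167.H72.SD.NS
import Vale.Agent.P167.H756.S8

/-!
# P167, general `q`, [GEO-ASM]: coordinates of the squares, shapes, literal interfaces

The plane is rotated by 45 degrees; the site `(x, y)` of the squares is the point `dl δ (x + i y)`,
`dl δ = δ / √2`; the origin is put at the site `v₀` (the mark `d`).
-/

set_option autoImplicit false

namespace Vale.Agent.P167.H446.G

open Filter Topology Set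
open Vale.Agent.P153.M1 (Expl)
open Vale.Agent.P167.QT
open Vale.Agent.P167.E6 (Medial pt region)
open Vale.Agent.P167.H411 (exn Set6)
open Vale.Agent.P167.H192 (ro)

/-- The family of shapes: `d` and `c` at the distances `Ld`, `Lc` of `b`, flat up to the distance `m`
of the segment from `c` to `d`, size at most `B`. -/
def Fam (Ld Lc m B s : ℝ) : Set Sh4 :=
  {P | P.Ok (Ku m s) ∧ P.l + Ku Ld s = P.m ∧ P.j + Ku Lc s = P.m ∧
    ∀ i, |(P.q i).1| ≤ Ku B s ∧ |(P.q i).2| ≤ Ku B s}

/-- The polygon in the coordinates of the squares, mesh `l`. -/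
noncomputable def emb (l : ℝ) (P : Sh4) : Set ℂ := interior (region l P.S)

/-- The tip of the polygon. -/
noncomputable def ea (l : ℝ) (P : Sh4) : ℂ :=
  (l : ℂ) * (pt (P.q P.k) + (1 / 2 : ℝ) * pt (P.q (P.k + 1) - P.q P.k))

/-- The target of the polygon. -/
noncomputable def eb (l : ℝ) (P : Sh4) : ℂ := (l : ℂ) * (pt (P.q 0) + 1 / 2)

end Vale.Agent.P167.H446.G
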