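import Vale.Agent.P167.H446.G.Cl
import Vale.Agent.P167.H918.AllS
import Vale.Agent.P167.H542.Q.Cm4
import Vale.Agent.P167.H469.SrswB
import Vale.Agent.P167.K8.RswFin

/-!
# P167, general `q`, [GEO-ASM]: `GeoQ` from the two blocks [BAD] and [SHP]
-/

set_option autoImplicit false

namespace Vale.Agent.P167.H446.G

open Vale.Agent.P167.QT

/-- **[GEOQ]** from [BAD] and [SHP]. -/
theorem geoQ_bs {μ : ℝ} (h0 : 0 < μ) (h1 : μ < Real.pi / 3) (hBad : B_bad μ) (hShp : B_shp) :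
    GeoQ μ (QE.Stair 3) := by
  have hpi := Real.pi_pos
  have hc : 0 < Real.cos μ := Real.cos_pos_of_mem_Ioo ⟨by linarith, by linarith⟩
  have hQ : 1 ≤ 2 * Real.cos μ := by
    have h2 : Real.cos (Real.pi / 3) ≤ Real.cos μ :=
      Real.cos_le_cos_of_nonneg_of_le_pi h0.le (by linarith) h1.le
    rw [Real.cos_pi_div_three] at h2
    linarith
  have hR : FK.RSW (2 * Real.cos μ) := K8.k_rsw μ h0.le h1.le
  have hS : H192.Q.SRSW (2 * Real.cos μ) := H469.srsw_of_rsw h0 h1.le hR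
  exact geoQ_of hc (H918.b_all hQ hR hS) hBad (H542Q.Cmp.b_cmp hQ hR hS) hShp (b_cl μ)

end Vale.Agent.P167.H446.G
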