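import Vale.Agent.P167.H446.G.Rot
import Vale.Agent.P167.H918.KLitN
import Vale.Agent.P167.H327.OriG
import Vale.Agent.P167.H756.S9
import Vale.Agent.P167.QE.Ft
import Vale.Agent.P167.CL.Sh3

/-!
# P167, general `q`, [GEO-ASM]: the uniformizer near a flat target

* `halfN` : near the target the lattice domains of the class `Stair 3` are a half-plane up to `2 δ`;
* `flat_lim` : so the limit domain is a half-plane near the target;
* `line_pos`, `line_neg` : the images of the large real numbers are on the line, to the left of the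
  target for positive ones.
-/

set_option autoImplicit false

open MeasureTheory ProbabilityTheory Filter Topology Set Metric Bornology
open scoped NNReal ENNReal

namespace Vale.Agent.P167.H446.G

open Vale.Agent.P153.R2
open Vale.Agent.P153.R2.DET (Uni HC)
open Vale.Agent.P153.R2.R1 (IsU Good DC FC homC toCH isUniformizer_iff good_DC DC_eq closure_DC
  isOpen_DC NoCut)
open Vale.Agent.P153.R2.L1 (HH)
open Vale.Agent.P153.R2.Final (dom circ toC IsUniformizer)
open Vale.Agent.P167.SLE (bq)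
open Vale.Agent.P167.E6 Vale.Agent.P167.E2 Vale.Agent.P167.H411
open Vale.Agent.P167.H756 (FlatUp flat_G)

variable {Φ : (ℝ × ℝ) ≃ₜ (ℝ × ℝ)} {ψ : ℂ → ℂ} {δ : ℕ → ℝ} {N k : ℕ → ℕ}
  {p : ∀ n, ZMod (N n) → ℤ × ℤ} {S : ℕ → Finset (ℤ × ℤ)} {ψn : ℕ → ℂ → ℂ}

theorem tendsto_b (hA : Approx Φ δ N k p S) :
    Tendsto (fun n => (δ n : ℂ) * pt (p n (k n))) atTop (𝓝 (bq Φ)) := by
  rw [Metric.tendsto_nhds]
  intro ε hε
  filter_upwards [hA.2.2 ε hε] with n hn
  obtain ⟨s, hs, h0, hk, hN, h⟩ := hn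
  obtain ⟨-, -, hkN, -⟩ := hA.1 n
  exact h (k n) hkN Real.pi ⟨hk.le, by rw [← hk]; exact hs (Nat.le_succ _)⟩

/-- Near the target the lattice domains are a half-plane, up to `2 δ`. -/
def HalfN (δ : ℕ → ℝ) (N k : ℕ → ℕ) (p : ∀ n, ZMod (N n) → ℤ × ℤ) (S : ℕ → Finset (ℤ × ℤ))
    (ρ : ℝ) : Prop :=
  ∀ᶠ n in atTop, ∀ z : ℂ, dist z ((δ n : ℂ) * pt (p n (k n))) < ρ →
    (((δ n : ℂ) * pt (p n (k n))).re + ((δ n : ℂ) * pt (p n (k n))).im + 2 * δ n ≤ z.re + z.im →
      z ∈ Om (δ n) (S n)) ∧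
    (z ∈ Om (δ n) (S n) →
      ((δ n : ℂ) * pt (p n (k n))).re + ((δ n : ℂ) * pt (p n (k n))).im - 2 * δ n ≤ z.re + z.im)

theorem halfN (hA : Approx Φ δ N k p S) (hK : QE.Stair 3 Φ δ N k p S) :
    ∃ ρ : ℝ, 0 < ρ ∧ HalfN δ N k p S ρ := by
  obtain ⟨r, hr, hst⟩ := hK
  obtain ⟨ρ, hρ, h⟩ := H918.klit hA hr hst
  refine ⟨ρ / 4, by positivity, ?_⟩
  filter_upwards [h] with n hn z hz
  obtain ⟨h1, h2⟩ := hn.2.2.2 z hz
  have hδ : 0 < δ n := (hA.1 n).1
  have e1 : ((δ n : ℂ) * pt (p n (k n))).re = δ n * (p n (k n)).1 := by simp [pt]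
  have e2 : ((δ n : ℂ) * pt (p n (k n))).im = δ n * (p n (k n)).2 := by simp [pt]
  have e3 : ((H192.ro (p n (k n))).2 : ℝ) = (p n (k n)).1 + (p n (k n)).2 := by simp [H192.ro]
  refine ⟨fun h => ?_, fun h => ?_⟩
  · have h3 : z ∈ region (δ n) (S n) := h1 (by rw [e3]; rw [e1, e2] at h; linarith)
    exact ⟨z, h3, by simpa using by positivity, by simpa using by positivity⟩
  · have h3 := h2 h
    rw [e3] at h3
    rw [e1, e2]
    linarith

theorem interior_closure_DC (Φ : (ℝ × ℝ) ≃ₜ (ℝ × ℝ)) : interior (closure (DC Φ)) = DC Φ := by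
  rw [closure_DC, ← (homC Φ).image_interior, interior_closedBall (0 : ℂ) one_ne_zero, ← DC_eq]

/-- Near the target the limit domain is a half-plane. -/
theorem flat_lim (H : Set6 Φ ψ δ N k p S ψn) {ρ : ℝ} (hF : HalfN δ N k p S ρ) {w : ℂ}
    (hw : dist w (bq Φ) < ρ) :
    w ∈ DC Φ ↔ (bq Φ).re + (bq Φ).im < w.re + w.im := by
  have hU : IsU ψ (DC Φ) (FC Φ 0) (FC Φ Real.pi) := (isUniformizer_iff Φ ψ).1 H.unif
  have hopen : IsOpen (DC Φ) := isOpen_DC Φ
  have hb : Tendsto (fun n => (δ n : ℂ) * pt (p n (k n))) atTop (𝓝 (bq Φ)) := tendsto_b H.appr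
  have hδ : Tendsto δ atTop (𝓝 0) := H.appr.2.1
  have hre : Continuous fun z : ℂ => z.re + z.im := Complex.continuous_re.add Complex.continuous_im
  have hbr : Tendsto (fun n => ((δ n : ℂ) * pt (p n (k n))).re + ((δ n : ℂ) * pt (p n (k n))).im)
      atTop (𝓝 ((bq Φ).re + (bq Φ).im)) := (hre.tendsto _).comp hb
  -- the weak inequality
  have key1 : ∀ w : ℂ, dist w (bq Φ) < ρ → w ∈ DC Φ → (bq Φ).re + (bq Φ).im ≤ w.re + w.im := by
    intro w hw hwD
    rw [← hU.img] at hwD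
    obtain ⟨z, hz, rfl⟩ := hwD
    have hz' : 0 < z.im := hz
    have h1 : Tendsto (fun n => ψn n z) atTop (𝓝 (ψ z)) := by
      rw [Metric.tendsto_nhds]
      intro ε hε
      filter_upwards [H.conv ε hε] with n hn
      exact hn z hz'.le
    have h2 : ∀ᶠ n in atTop, dist (ψn n z) ((δ n : ℂ) * pt (p n (k n))) < ρ :=
      (h1.dist hb).eventually (gt_mem_nhds hw)
    have h3 : ∀ᶠ n in atTop, ((δ n : ℂ) * pt (p n (k n))).re + ((δ n : ℂ) * pt (p n (k n))).im -
        2 * δ n ≤ (ψn n z).re + (ψn n z).im := by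
      filter_upwards [h2, hF, good_ev H.appr] with n a1 a2 a3
      refine (a2 _ a1).2 ?_
      rw [← (H.isU n a3).img]
      exact mem_image_of_mem _ hz
    have h4 := hbr.sub (hδ.const_mul 2)
    have h5 : Tendsto (fun n => (ψn n z).re + (ψn n z).im) atTop (𝓝 ((ψ z).re + (ψ z).im)) :=
      (hre.tendsto _).comp h1
    have h6 := le_of_tendsto_of_tendsto h4 h5 h3
    linarith
  constructor
  · intro hwD
    have hc : Tendsto (fun t : ℝ => w - (t : ℂ) * (1 + Complex.I)) (𝓝[>] 0) (𝓝 w) := by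
      have h1 : Continuous fun t : ℝ => w - (t : ℂ) * (1 + Complex.I) := by fun_prop
      have h2 := h1.tendsto 0
      simp only [Complex.ofReal_zero, zero_mul, sub_zero] at h2
      exact h2.mono_left nhdsWithin_le_nhds
    have h3 : ∀ᶠ t : ℝ in 𝓝[>] 0, w - (t : ℂ) * (1 + Complex.I) ∈ DC Φ ∧
        dist (w - (t : ℂ) * (1 + Complex.I)) (bq Φ) < ρ ∧ 0 < t := by
      filter_upwards [hc.eventually (hopen.mem_nhds hwD),
        hc.eventually (isOpen_ball.mem_nhds (mem_ball.2 hw)), self_mem_nhdsWithin] with t a1 a2 a3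
      exact ⟨a1, mem_ball.1 a2, a3⟩
    obtain ⟨t, h4, h5, h6⟩ := h3.exists
    have h7 := key1 _ h5 h4
    simp at h7
    linarith
  · intro hlt
    set V : Set ℂ := {w' | dist w' (bq Φ) < ρ ∧ (bq Φ).re + (bq Φ).im < w'.re + w'.im} with hV
    have hVo : IsOpen V := (isOpen_lt (continuous_id.dist continuous_const) continuous_const).inter
      (isOpen_lt continuous_const hre)
    have hVc : V ⊆ closure (DC Φ) := by
      rintro w' ⟨h1, h2⟩
      rw [Metric.mem_closure_iff]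
      intro ε hε
      have a1 : ∀ᶠ n in atTop, dist w' ((δ n : ℂ) * pt (p n (k n))) < ρ :=
        (tendsto_const_nhds.dist hb).eventually (gt_mem_nhds h1)
      have a2 : ∀ᶠ n in atTop, ((δ n : ℂ) * pt (p n (k n))).re +
          ((δ n : ℂ) * pt (p n (k n))).im + 2 * δ n < w'.re + w'.im := by
        have h4 := hbr.add (hδ.const_mul 2)
        rw [mul_zero, add_zero] at h4
        exact h4.eventually (gt_mem_nhds h2)
      obtain ⟨n, b1, b2, b3, b4, b5⟩ :=
        (a1.and (a2.and (hF.and ((good_ev H.appr).and (H.conv ε hε))))).exists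
      have h5 := (b3 _ b1).1 b2.le
      rw [← (H.isU n b4).img] at h5
      obtain ⟨z, hz, h6⟩ := h5
      have hz' : 0 < z.im := hz
      refine ⟨ψ z, hU.img ▸ mem_image_of_mem _ hz, ?_⟩
      rw [← h6]
      exact b5 z hz'.le
    rw [← interior_closure_DC Φ]
    exact interior_mono hVc (hVo.interior_eq.symm ▸ ⟨hw, hlt⟩)

/-! ### The rotation -/

/-- The rotated homeomorphism. -/
noncomputable def rotP (Φ : (ℝ × ℝ) ≃ₜ (ℝ × ℝ)) : (ℝ × ℝ) ≃ₜ (ℝ × ℝ) :=
  ((Φ.trans toCH).trans (Homeomorph.mulLeft₀ rt rt_ne)).trans toCH.symm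

theorem toC_rotP (Φ : (ℝ × ℝ) ≃ₜ (ℝ × ℝ)) (z : ℝ × ℝ) : toC (rotP Φ z) = rt * toC (Φ z) := by
  show toCH (toCH.symm (rt * toCH (Φ z))) = rt * toCH (Φ z)
  rw [Homeomorph.apply_symm_apply]

theorem DC_rotP (Φ : (ℝ × ℝ) ≃ₜ (ℝ × ℝ)) : DC (rotP Φ) = (fun z => rt * z) '' DC Φ := by
  unfold R1.DC dom
  rw [image_image, image_image, image_image]
  refine image_congr fun z _ => ?_
  exact toC_rotP Φ z

theorem isU_rt (H : Set6 Φ ψ δ N k p S ψn) :
    IsU (fun z => rt * ψ z) (DC (rotP Φ)) (rt * FC Φ 0) (rt * bq Φ) := by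
  have hU : IsU ψ (DC Φ) (FC Φ 0) (FC Φ Real.pi) := (isUniformizer_iff Φ ψ).1 H.unif
  have h := CL.isU_sim hU rt_ne 0
  simp only [add_zero] at h
  rw [DC_rotP]
  exact h

theorem flatUp_lim (H : Set6 Φ ψ δ N k p S ψn) {ρ : ℝ} (hF : HalfN δ N k p S ρ) :
    FlatUp (DC (rotP Φ)) (rt * bq Φ) ρ := by
  intro z hz
  have hz0 : z = rt * (rt⁻¹ * z) := by rw [mul_inv_cancel_left₀ rt_ne]
  set w : ℂ := rt⁻¹ * z with hw
  rw [hz0, mem_ball, dist_rt] at hz
  rw [hz0, DC_rotP]
  have h1 : rt * w ∈ (fun z => rt * z) '' DC Φ ↔ w ∈ DC Φ := by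
    constructor
    · rintro ⟨y, hy, h⟩
      rwa [← mul_left_cancel₀ rt_ne h]
    · exact fun h => ⟨w, h, rfl⟩
  have h2 : (0 : ℝ) < √2 := by positivity
  rw [h1, flat_lim H hF hz, rt_im, rt_im, div_lt_div_iff_of_pos_right h2]

/-! ### The images of the large real numbers -/

section line

variable {D : Set ℂ} {a b : ℂ} {φ : ℂ → ℂ} {ρ : ℝ}

/-- A real point whose image is near the target is mapped to the line, and the map is increasing
there. -/
theorem line_at (hG : Good D) (hU : IsU φ D a b) (hf : FlatUp D b ρ) {x : ℝ}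
    (hx : dist (φ x) b < ρ) :
    (φ x).im = b.im ∧ ∃ d : ℝ, 0 < d ∧ HasDerivAt (fun y : ℝ => (φ y).re) d x := by
  have hfr := H327.real_frontier hU hG.nocut hG.isOpen x
  have him : (φ x).im = b.im := by
    rw [hG.isOpen.frontier_eq] at hfr
    have h1 := (hf.closure (mem_ball.2 hx)).1 hfr.1
    have h2 : ¬ b.im < (φ x).im := fun h => hfr.2 ((hf _ (mem_ball.2 hx)).2 h)
    linarith
  refine ⟨him, ?_⟩
  have hne : φ x ≠ b := (hU.injOn hG.nocut).2 x (by simp)
  have hd : 0 < dist (φ x) b := dist_pos.2 hne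
  set r : ℝ := min (ρ - dist (φ x) b) (dist (φ x) b) with hr
  have hr0 : 0 < r := lt_min (by linarith) hd
  have hfx : FlatUp D (φ x) r := by
    intro z hz
    rw [him]
    refine hf z ?_
    rw [mem_ball] at hz ⊢
    have h1 := dist_triangle z (φ x) b
    have h2 : r ≤ ρ - dist (φ x) b := min_le_left _ _
    linarith
  obtain ⟨D', hD', hder, -⟩ := flat_G hG hU hr0 hfx (by rw [dist_comm]; exact min_le_right _ _) rfl
  refine ⟨1 / D', by positivity, ?_⟩
  have h0 : HasDerivAt (fun y : ℝ => (y : ℂ)) 1 x := by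
    simpa using (hasDerivAt_id x).ofReal_comp
  have h1 : HasDerivWithinAt (fun y : ℝ => (y : ℂ)) 1 univ x := h0.hasDerivWithinAt
  have h2 := HasDerivWithinAt.scomp (h := fun y : ℝ => (y : ℂ)) (t' := {z : ℂ | 0 ≤ z.im}) x hder h1
    (fun y _ => by simp)
  rw [hasDerivWithinAt_univ, one_smul] at h2
  have h4 := Complex.reCLM.hasFDerivAt.comp_hasDerivAt x h2
  have e : Complex.reCLM ((1 / D' : ℝ) : ℂ) = 1 / D' := by simp
  rw [e] at h4
  exact h4

/-- On an interval which is mapped near the target the real part is increasing. -/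
theorem line_mono (hG : Good D) (hU : IsU φ D a b) (hf : FlatUp D b ρ) {I : Set ℝ}
    (hI : Convex ℝ I) (hx : ∀ x ∈ I, dist (φ (x : ℝ)) b < ρ) :
    StrictMonoOn (fun y : ℝ => (φ y).re) I := by
  refine strictMonoOn_of_deriv_pos hI ?_ ?_
  · intro x hxI
    obtain ⟨-, d, -, h⟩ := line_at hG hU hf (hx x hxI)
    exact h.continuousAt.continuousWithinAt
  · intro x hxI
    obtain ⟨-, d, hd, h⟩ := line_at hG hU hf (hx x (interior_subset hxI))
    rw [h.deriv]
    exact hd

theorem line_pos (hG : Good D) (hU : IsU φ D a b) (hf : FlatUp D b ρ) {X : ℝ}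
    (hX : ∀ x : ℝ, X ≤ x → dist (φ x) b < ρ) {x : ℝ} (hx : X ≤ x) :
    (φ x).im = b.im ∧ (φ x).re = b.re - dist (φ x) b := by
  have him := (line_at hG hU hf (hX x hx)).1
  refine ⟨him, ?_⟩
  have hmono : StrictMonoOn (fun y : ℝ => (φ y).re) (Ici X) :=
    line_mono hG hU hf (convex_Ici X) fun y hy => hX y hy
  have hlim : Tendsto (fun y : ℝ => (φ y).re) atTop (𝓝 b.re) := by
    refine (Complex.continuous_re.tendsto b).comp (hU.infty.comp ?_)
    refine tendsto_inf.2 ⟨?_, ?_⟩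
    · rw [← tendsto_norm_atTop_iff_cobounded]
      refine tendsto_abs_atTop_atTop.congr fun y => ?_
      rw [Complex.norm_real, Real.norm_eq_abs]
    · rw [tendsto_principal]
      exact Eventually.of_forall fun y => by simp
  have hlt : (φ x).re < b.re := by
    have h1 : (φ x).re < (φ ((x + 1 : ℝ) : ℂ)).re :=
      hmono (show x ∈ Ici X from hx) (show x + 1 ∈ Ici X from by
        show X ≤ x + 1
        linarith) (by linarith)
    refine h1.trans_le (ge_of_tendsto hlim ?_)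
    filter_upwards [eventually_gt_atTop (x + 1)] with y hy
    exact (hmono (show x + 1 ∈ Ici X from by
        show X ≤ x + 1
        linarith) (show y ∈ Ici X from by
        show X ≤ y
        linarith) hy).le
  have e : φ x - b = (((φ x).re - b.re : ℝ) : ℂ) := by
    apply Complex.ext
    · simp
    · simp [him]
  rw [dist_eq_norm, e, Complex.norm_real, Real.norm_eq_abs, abs_of_neg (by linarith)]
  ring

theorem line_neg (hG : Good D) (hU : IsU φ D a b) (hf : FlatUp D b ρ) {X : ℝ}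
    (hX : ∀ x : ℝ, x ≤ X → dist (φ x) b < ρ) {x : ℝ} (hx : x ≤ X) :
    (φ x).im = b.im ∧ (φ x).re = b.re + dist (φ x) b := by
  have him := (line_at hG hU hf (hX x hx)).1
  refine ⟨him, ?_⟩
  have hmono : StrictMonoOn (fun y : ℝ => (φ y).re) (Iic X) :=
    line_mono hG hU hf (convex_Iic X) fun y hy => hX y hy
  have hlim : Tendsto (fun y : ℝ => (φ y).re) atBot (𝓝 b.re) := by
    refine (Complex.continuous_re.tendsto b).comp (hU.infty.comp ?_)
    refine tendsto_inf.2 ⟨?_, ?_⟩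
    · rw [← tendsto_norm_atTop_iff_cobounded]
      refine tendsto_abs_atBot_atTop.congr fun y => ?_
      rw [Complex.norm_real, Real.norm_eq_abs]
    · rw [tendsto_principal]
      exact Eventually.of_forall fun y => by simp
  have hlt : b.re < (φ x).re := by
    have h1 : (φ ((x - 1 : ℝ) : ℂ)).re < (φ x).re :=
      hmono (show x - 1 ∈ Iic X from by
        show x - 1 ≤ X
        linarith) (show x ∈ Iic X from hx) (by linarith)
    refine lt_of_le_of_lt (le_of_tendsto hlim ?_) h1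
    filter_upwards [eventually_lt_atBot (x - 1)] with y hy
    exact (hmono (show y ∈ Iic X from by
        show y ≤ X
        linarith) (show x - 1 ∈ Iic X from by
        show x - 1 ≤ X
        linarith) hy).le
  have e : φ x - b = (((φ x).re - b.re : ℝ) : ℂ) := by
    apply Complex.ext
    · simp
    · simp [him]
  rw [dist_eq_norm, e, Complex.norm_real, Real.norm_eq_abs, abs_of_pos (by linarith)]
  ring

end line

/-- **The uniformizer near a flat target.** -/
theorem line_all (H : Set6 Φ ψ δ N k p S ψn) {ρ : ℝ} (hρ : 0 < ρ) (hF : HalfN δ N k p S ρ) :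
    ∃ X : ℝ, 0 < X ∧
      (∀ x : ℝ, X ≤ x → (rt * ψ x).im = (rt * bq Φ).im ∧
        (rt * ψ x).re = (rt * bq Φ).re - dist (ψ x) (bq Φ)) ∧
      (∀ x : ℝ, x ≤ -X → (rt * ψ x).im = (rt * bq Φ).im ∧
        (rt * ψ x).re = (rt * bq Φ).re + dist (ψ x) (bq Φ)) ∧
      StrictMonoOn (fun x : ℝ => (rt * ψ x).re) (Ici X) ∧
      StrictMonoOn (fun x : ℝ => (rt * ψ x).re) (Iic (-X)) := by
  have hG : Good (DC (rotP Φ)) := good_DC _
  have hU := isU_rt H
  have hf := flatUp_lim H hF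
  have hU' : Uni ψ (bq Φ) := SLE.uni_of_uniformizer R1.i_uinj H.unif
  obtain ⟨M, hM⟩ := H756.mod_inf1 hU' hρ
  set X : ℝ := |M| + 1 with hX
  have hX0 : 0 < X := by positivity
  have hMX : M ≤ X := by linarith [le_abs_self M]
  have h1 : ∀ x : ℝ, X ≤ x → dist (rt * ψ x) (rt * bq Φ) < ρ := by
    intro x hx
    rw [dist_rt, dist_eq_norm]
    refine hM x (by simp) ?_
    rw [Complex.norm_real, Real.norm_of_nonneg (by linarith)]
    linarith
  have h2 : ∀ x : ℝ, x ≤ -X → dist (rt * ψ x) (rt * bq Φ) < ρ := by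
    intro x hx
    rw [dist_rt, dist_eq_norm]
    refine hM x (by simp) ?_
    rw [Complex.norm_real, Real.norm_of_nonpos (by linarith)]
    linarith
  refine ⟨X, hX0, fun x hx => ?_, fun x hx => ?_, ?_, ?_⟩
  · have h3 := line_pos hG hU hf h1 hx
    rw [dist_rt] at h3
    exact h3
  · have h3 := line_neg hG hU hf h2 hx
    rw [dist_rt] at h3
    exact h3
  · exact line_mono hG hU hf (convex_Ici X) fun x hx => h1 x hx
  · exact line_mono hG hU hf (convex_Iic (-X)) fun x hx => h2 x hx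

end Vale.Agent.P167.H446.G
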