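import Vale.Agent.P167.H446.G.Lit
import Vale.Agent.P167.H756.S13

/-!
# P167, general `q`, [GEO-ASM]: the literal inputs (2), closeness of the conformal data
-/

set_option autoImplicit false

namespace Vale.Agent.P167.H446.G

open Filter Topology Set
open Vale.Agent.P167.QT
open Vale.Agent.P167.H411 (exn Set6)
open Vale.Agent.P167.H756 (PF FlatAt)

variable (μ : ℝ) (C : Cst) (δ : ℕ → ℝ) (N k : ℕ → ℕ) (p : ∀ n, ZMod (N n) → ℤ × ℤ)
  (S : ℕ → Finset (ℤ × ℤ)) (ψn : ℕ → ℂ → ℂ)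

/-- The closeness of the conformal data of the explored domain and of a shape (mesh
`dl (δ n) * Nn s (δ n)`, origin at the mark `d`), precision `h`. -/
def ClS (h s : ℝ) (n : ℕ) (A : Hst) (j : ℕ) (P : Sh4) : Prop :=
  (∃ Q : Set ℂ, PF h (psr (δ n) (vd (p n) (k n) C.Ld s (δ n)) (ψn n))
    ((exn δ N k p S ψn n).W A) ((exn δ N k p S ψn n).c A j) C.Y C.Rb Q
    (emb (dl (δ n) * Nn s (δ n)) P) (ea (dl (δ n) * Nn s (δ n)) P)) ∧
  FlatAt (emb (dl (δ n) * Nn s (δ n)) P) (eb (dl (δ n) * Nn s (δ n)) P) C.m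

/-- **[SHP]** literal. -/
def I_shpC : Prop := I_shp C δ N k p S ψn (ClS C δ N k p S ψn)

/-- **[CL]** The closeness of the conformal quantities. -/
def I_cl (ε : ℝ) : Prop :=
  ∃ h : ℝ, 0 < h ∧ ∃ s₀ : ℝ, 0 < s₀ ∧ ∀ s : ℝ, 0 < s → s ≤ s₀ → ∀ᶠ n in atTop,
    ∀ (A : Hst) (j : ℕ) (A' : Hst) (P P₀ : Sh4), Bef (exn δ N k p S ψn n) C.T C.R A j →
      Bef (exn δ N k p S ψn n) C.T C.R A' 0 → P ∈ Fam C.Ld C.Lc C.m C.B s →
        P₀ ∈ Fam C.Ld C.Lc C.m C.B s → ClS C δ N k p S ψn h s n A j P →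
          ClS C δ N k p S ψn h s n A' 0 P₀ → ClQ μ ε (exn δ N k p S ψn n) C.X A j P P₀

end Vale.Agent.P167.H446.G
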