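import Vale.Agent.P167.H446.G.Lit2
import Vale.Agent.P167.H446.G.Line
import Vale.Agent.P167.H756.S10

/-!
# P167, general `q`, [GEO-ASM]: the marks of the shapes in the frame

* `mark_d`, `mark_c` : the marks `d`, `c` are close to the images of `X'`, `X`;
* `eb_eq` : the target of the shapes is the junction `b`;
* `flatAt_d`, `flatAt_c` : the shapes are flat there;
* `posL` : the conformal quantities in the frame.
-/

set_option autoImplicit false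

open Filter Topology Set Metric

namespace Vale.Agent.P167.H446.G

open Vale.Agent.P153.R2
open Vale.Agent.P167.QT
open Vale.Agent.P167.SLE (bq)
open Vale.Agent.P167.E6 (pt region Approx)
open Vale.Agent.P167.E2 (bM)
open Vale.Agent.P167.H411 (exn Set6)
open Vale.Agent.P167.H756 (PC FlatAt QPosL QPos)

variable {Φ : (ℝ × ℝ) ≃ₜ (ℝ × ℝ)} {ψ : ℂ → ℂ} {δ : ℕ → ℝ} {N k : ℕ → ℕ}
  {p : ∀ n, ZMod (N n) → ℤ × ℤ} {S : ℕ → Finset (ℤ × ℤ)} {ψn : ℕ → ℂ → ℂ} {C : Cst}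

/-- The unit. -/
noncomputable def un (s δ : ℝ) : ℝ := dl δ * Nn s δ

theorem psr_eq {n : ℕ} (p : ZMod n → ℤ × ℤ) (k : ℕ) (L s δ : ℝ) (ψ : ℂ → ℂ) (z : ℂ) :
    psr δ (vd p k L s δ) ψ z = rt * (ψ z - (δ : ℂ) * pt (p k)) +
      ((un s δ * ((Ku L s : ℝ) + 1 / 2) : ℝ) : ℂ) := by
  have h := psr_b p k L s δ
  have e : dl δ * ((Ku L s : ℝ) * Nn s δ + Nn s δ / 2) = un s δ * ((Ku L s : ℝ) + 1 / 2) := by
    unfold un
    ring
  rw [e] at h
  unfold psr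
  rw [← h]
  ring

theorem tendsto_psr (H : Set6 Φ ψ δ N k p S ψn) {s : ℝ} (hs : 0 < s) (L : ℝ) {z : ℂ}
    (hz : 0 ≤ z.im) :
    Tendsto (fun n => psr (δ n) (vd (p n) (k n) L s (δ n)) (ψn n) z) atTop
      (𝓝 (rt * (ψ z - bq Φ) + ((s * ((Ku L s : ℝ) + 1 / 2) : ℝ) : ℂ))) := by
  have h1 : Tendsto (fun n => ψn n z) atTop (𝓝 (ψ z)) := by
    rw [Metric.tendsto_nhds]
    intro ε hε
    filter_upwards [H.conv ε hε] with n hn
    exact hn z hz
  have h2 := tendsto_b H.appr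
  have h3 : Tendsto (fun n => un s (δ n)) atTop (𝓝 s) :=
    tendsto_dlNn (fun n => (H.appr.1 n).1) H.appr.2.1 hs
  have h4 : Tendsto (fun n => ((un s (δ n) * ((Ku L s : ℝ) + 1 / 2) : ℝ) : ℂ)) atTop
      (𝓝 ((s * ((Ku L s : ℝ) + 1 / 2) : ℝ) : ℂ)) :=
    (Complex.continuous_ofReal.tendsto _).comp (h3.mul_const _)
  have h5 := ((h1.sub h2).const_mul rt).add h4
  refine h5.congr fun n => ?_
  exact (psr_eq (p n) (k n) L s (δ n) (ψn n) z).symm

/-- A point on the line to the left of the target. -/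
theorem line_pt {x : ℝ} (h1 : (rt * ψ x).im = (rt * bq Φ).im)
    (h2 : (rt * ψ x).re = (rt * bq Φ).re - dist (ψ x) (bq Φ)) :
    rt * (ψ x - bq Φ) = ((-dist (ψ x) (bq Φ) : ℝ) : ℂ) := by
  rw [mul_sub]
  apply Complex.ext
  · rw [Complex.sub_re, Complex.ofReal_re, h2]
    ring
  · rw [Complex.sub_im, Complex.ofReal_im, h1, sub_self]

theorem un_tendsto (H : Set6 Φ ψ δ N k p S ψn) {s : ℝ} (hs : 0 < s) :
    Tendsto (fun n => un s (δ n)) atTop (𝓝 s) :=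
  tendsto_dlNn (fun n => (H.appr.1 n).1) H.appr.2.1 hs

/-- The mark `d`. -/
theorem mark_d (H : Set6 Φ ψ δ N k p S ψn) (h1 : (rt * ψ C.X').im = (rt * bq Φ).im)
    (h2 : (rt * ψ C.X').re = (rt * bq Φ).re - dist (ψ C.X') (bq Φ))
    (hL : C.Ld = dist (ψ C.X') (bq Φ)) {s : ℝ} (hs : 0 < s) :
    ∀ᶠ n in atTop, ‖0 - psr (δ n) (vd (p n) (k n) C.Ld s (δ n)) (ψn n) C.X'‖ < s := by
  have hz : 0 ≤ ((C.X' : ℝ) : ℂ).im := by simp
  have h3 := tendsto_psr H hs C.Ld hz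
  rw [line_pt h1 h2, ← hL, ← Complex.ofReal_add] at h3
  have h4 := (h3.const_sub 0).norm
  refine h4.eventually (gt_mem_nhds ?_)
  rw [zero_sub, norm_neg, Complex.norm_real, Real.norm_eq_abs, abs_lt]
  have hL0 : 0 ≤ C.Ld := hL ▸ dist_nonneg
  have h5 := Ku_le hL0 hs
  have h6 := lt_Ku (L := C.Ld) hs
  constructor <;> linarith

theorem fam_jl {s : ℝ} {P : Sh4} (hP : P ∈ Fam C.Ld C.Lc C.m C.B s) :
    P.q P.j = ((Ku C.Ld s : ℤ) - Ku C.Lc s, 0) := by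
  obtain ⟨hok, h1, h2, -⟩ := hP
  have h3 := hok.j_lt
  have h4 := hok.l_lt
  rw [hok.line P.j (by omega) (by omega)]
  apply Prod.ext
  · show (P.j : ℤ) - P.l = _
    omega
  · rfl

theorem fam_q0 {s : ℝ} {P : Sh4} (hP : P ∈ Fam C.Ld C.Lc C.m C.B s) :
    P.q 0 = ((Ku C.Ld s : ℤ), 0) := by
  obtain ⟨hok, h1, h2, -⟩ := hP
  have h3 := hok.j_lt
  have h4 := hok.l_lt
  have h5 := hok.line P.m (by omega) (by omega)
  rw [ZMod.natCast_self] at h5
  rw [h5]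
  apply Prod.ext
  · show (P.m : ℤ) - P.l = _
    omega
  · rfl

/-- The mark `c`. -/
theorem mark_c (H : Set6 Φ ψ δ N k p S ψn) (h1 : (rt * ψ C.X).im = (rt * bq Φ).im)
    (h2 : (rt * ψ C.X).re = (rt * bq Φ).re - dist (ψ C.X) (bq Φ))
    (hL : C.Lc = dist (ψ C.X) (bq Φ)) {s : ℝ} (hs : 0 < s) :
    ∀ᶠ n in atTop, ∀ P ∈ Fam C.Ld C.Lc C.m C.B s,
      ‖(un s (δ n) : ℂ) * pt (P.q P.j) -
        psr (δ n) (vd (p n) (k n) C.Ld s (δ n)) (ψn n) C.X‖ < s := by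
  have hz : 0 ≤ ((C.X : ℝ) : ℂ).im := by simp
  have h3 := tendsto_psr H hs C.Ld hz
  rw [line_pt h1 h2, ← hL, ← Complex.ofReal_add] at h3
  have h4 : Tendsto (fun n => (un s (δ n) : ℂ) * (((Ku C.Ld s : ℝ) - Ku C.Lc s : ℝ) : ℂ)) atTop
      (𝓝 ((s : ℂ) * (((Ku C.Ld s : ℝ) - Ku C.Lc s : ℝ) : ℂ))) :=
    ((Complex.continuous_ofReal.tendsto _).comp (un_tendsto H hs)).mul_const _
  rw [← Complex.ofReal_mul] at h4
  have h5 := (h4.sub h3).norm
  rw [← Complex.ofReal_sub, Complex.norm_real, Real.norm_eq_abs] at h5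
  have h6 : ∀ᶠ n in atTop, ‖(un s (δ n) : ℂ) * (((Ku C.Ld s : ℝ) - Ku C.Lc s : ℝ) : ℂ) -
      psr (δ n) (vd (p n) (k n) C.Ld s (δ n)) (ψn n) C.X‖ < s := by
    refine h5.eventually (gt_mem_nhds ?_)
    rw [abs_lt]
    have hL0 : 0 ≤ C.Lc := hL ▸ dist_nonneg
    have h7 := Ku_le hL0 hs
    have h8 := lt_Ku (L := C.Lc) hs
    constructor <;> nlinarith
  filter_upwards [h6] with n hn P hP
  have e : pt (P.q P.j) = (((Ku C.Ld s : ℝ) - Ku C.Lc s : ℝ) : ℂ) := by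
    rw [fam_jl hP]
    apply Complex.ext
    · simp [pt]
    · simp [pt]
  rw [e]
  exact hn

/-- The target of the shapes. -/
theorem eb_eq {s δ : ℝ} {P : Sh4} (hP : P ∈ Fam C.Ld C.Lc C.m C.B s) :
    eb (un s δ) P = ((un s δ * ((Ku C.Ld s : ℝ) + 1 / 2) : ℝ) : ℂ) := by
  unfold eb
  rw [fam_q0 hP]
  apply Complex.ext
  · simp [pt]
  · simp [pt]

/-- The target of the shapes is close to the target of the uniformizer. -/
theorem mark_b (H : Set6 Φ ψ δ N k p S ψn) {h : ℝ} (hh : 0 < h) :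
    ∀ᶠ n in atTop, ∀ s : ℝ, ∀ P ∈ Fam C.Ld C.Lc C.m C.B s,
      ‖eb (un s (δ n)) P - (rt * bM (p n) (k n) (δ n) +
        -((dl (δ n) : ℂ) * pt (vd (p n) (k n) C.Ld s (δ n))))‖ < h := by
  have h1 := (tendsto_b H.appr).sub (H327.tendsto_bM H.appr)
  have e0 : R1.FC Φ Real.pi = bq Φ := rfl
  rw [e0, sub_self] at h1
  have h2 := h1.norm
  rw [norm_zero] at h2
  filter_upwards [h2.eventually (gt_mem_nhds hh)] with n hn s P hP
  rw [eb_eq hP]
  have h3 := psr_b (p n) (k n) C.Ld s (δ n)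
  have e : dl (δ n) * ((Ku C.Ld s : ℝ) * Nn s (δ n) + Nn s (δ n) / 2) =
      un s (δ n) * ((Ku C.Ld s : ℝ) + 1 / 2) := by
    unfold un
    ring
  rw [e] at h3
  rw [← h3]
  have e2 : rt * ((δ n : ℂ) * pt (p n (k n))) + -((dl (δ n) : ℂ) * pt (vd (p n) (k n) C.Ld s (δ n))) -
      (rt * bM (p n) (k n) (δ n) + -((dl (δ n) : ℂ) * pt (vd (p n) (k n) C.Ld s (δ n)))) =
      rt * ((δ n : ℂ) * pt (p n (k n)) - bM (p n) (k n) (δ n)) := by ring
  rw [e2, norm_mul, norm_rt, one_mul]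
  exact hn

/-! ### Flatness -/

theorem flatAt_of {P : Sh4} {ρ : ℕ} (h : P.Ok ρ) {l : ℝ} (hl : 0 < l) {i : ℤ}
    (h1 : (P.j : ℤ) - P.l ≤ i) (h2 : i ≤ 0) :
    FlatAt (emb l P) ((l : ℂ) * pt (i, 0)) (l * ρ) := by
  have hF : BR.Flt P.S (i, 0) ρ := by
    intro v a1 a2 a3 a4
    refine h.flat v ?_ ?_ ?_ ?_
    · simp only at a1
      omega
    · simp only at a2
      omega
    · simp only at a3
      omega
    · simp only at a4
      omega
  exact CL.flat_up hF hl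

theorem FlatAt.mono {P : Set ℂ} {c : ℂ} {m m' : ℝ} (h : FlatAt P c m) (hm : m' ≤ m) :
    FlatAt P c m' := fun z hz => h z (ball_subset_ball hm hz)

/-- The radius of the flat part. -/
theorem rad_ge (H : Set6 Φ ψ δ N k p S ψn) {m s : ℝ} (hs : 0 < s) (hm : 8 * s ≤ m) :
    ∀ᶠ n in atTop, m / 2 ≤ un s (δ n) * Ku m s ∧ 0 < un s (δ n) := by
  have h1 := un_tendsto H hs
  have h2 := h1.mul_const (Ku m s : ℝ)
  have h3 := lt_Ku (L := m) hs
  have h4 : m / 2 < s * Ku m s := by linarith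
  filter_upwards [h2.eventually (lt_mem_nhds h4), h1.eventually (lt_mem_nhds hs)] with n a1 a2
  exact ⟨a1.le, a2⟩

theorem flatAt_marks (H : Set6 Φ ψ δ N k p S ψn) {s : ℝ} (hs : 0 < s) (hm : 8 * s ≤ C.m) :
    ∀ᶠ n in atTop, ∀ P ∈ Fam C.Ld C.Lc C.m C.B s,
      FlatAt (emb (un s (δ n)) P) ((un s (δ n) : ℂ) * pt (P.q P.j)) (C.m / 2) ∧
        FlatAt (emb (un s (δ n)) P) 0 (C.m / 2) := by
  filter_upwards [rad_ge H hs hm] with n hn P hP
  have hok := hP.1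
  have hjl := hok.j_lt
  constructor
  · have h1 := flatAt_of hok hn.2 (i := (P.j : ℤ) - P.l) le_rfl (by omega)
    have e : P.q P.j = ((P.j : ℤ) - P.l, 0) := by
      have h4 := hok.l_lt
      rw [hok.line P.j (by omega) (by omega)]
    rw [e]
    exact FlatAt.mono h1 hn.1
  · have h1 := flatAt_of hok hn.2 (i := 0) (by omega) le_rfl
    have e : (un s (δ n) : ℂ) * pt (0, 0) = 0 := by
      apply Complex.ext <;> simp [pt]
    rw [e] at h1
    exact FlatAt.mono h1 hn.1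

/-! ### The conformal quantities -/

theorem posL {P : Sh4} {u v l : ℝ} (hl : 0 < l) (h : P.Pos u v) :
    QPosL (l : ℂ) (emb l P) (ea l P) (eb l P) ((l : ℂ) * pt (P.q P.j)) 0 u v := by
  have hl' : (l : ℂ) ≠ 0 := by exact_mod_cast hl.ne'
  have h1 := QPosL.sim hl' 0 (H756.QPos.toL h)
  have e : (fun z : ℂ => (l : ℂ) * z + 0) '' interior (region 1 P.S) = emb l P := by
    have h2 := CL.D6_sim (ℓ := 1) hl P.S
    rw [mul_one] at h2
    simp only [add_zero]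
    exact h2.symm
  rw [e, mul_one] at h1
  simp only [add_zero, mul_zero] at h1
  exact h1

end Vale.Agent.P167.H446.G
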