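import Mathlib

/-!
# P167, general `q`, [GEO-ASM]: the rotation by 45 degrees
-/

set_option autoImplicit false

namespace Vale.Agent.P167.H446.G

/-- The mesh of the squares. -/
noncomputable def dl (δ : ℝ) : ℝ := δ / √2

/-- The rotation by 45 degrees. -/
noncomputable def rt : ℂ := (1 + Complex.I) / (√2 : ℝ)

theorem dl_pos {δ : ℝ} (h : 0 < δ) : 0 < dl δ := by unfold dl; positivity

theorem sqrt2_ne : ((√2 : ℝ) : ℂ) ≠ 0 := by
  rw [Complex.ofReal_ne_zero]
  positivity

theorem rt_ne : rt ≠ 0 := by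
  unfold rt
  refine div_ne_zero ?_ sqrt2_ne
  intro h
  have := congrArg Complex.re h
  simp at this

theorem norm_rt : ‖rt‖ = 1 := by
  unfold rt
  rw [norm_div, Complex.norm_real, Real.norm_of_nonneg (by positivity)]
  rw [div_eq_one_iff_eq (by positivity)]
  rw [← Real.sqrt_sq (norm_nonneg (1 + Complex.I)), Complex.sq_norm, Complex.normSq_apply]
  congr 1
  norm_num

theorem rt_re (z : ℂ) : (rt * z).re = (z.re - z.im) / √2 := by
  unfold rt
  rw [div_mul_eq_mul_div, Complex.div_ofReal_re]
  simp [add_mul]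
  ring

theorem rt_im (z : ℂ) : (rt * z).im = (z.re + z.im) / √2 := by
  unfold rt
  rw [div_mul_eq_mul_div, Complex.div_ofReal_im]
  simp [add_mul]
  ring

theorem dist_rt (z w : ℂ) : dist (rt * z) (rt * w) = dist z w := by
  rw [dist_eq_norm, ← mul_sub, norm_mul, norm_rt, one_mul, dist_eq_norm]

end Vale.Agent.P167.H446.G
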